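import Mathlib

/-!
# P216-C : handle decompositions

`Cell M n D S`: the pair `(D, S)` is homotopy equivalent to `(I^n, ∂I^n)`, with `φ ∘ ψ = id` on the
cube and `ψ ∘ φ ≃ id` by a homotopy `K` of the pair `(D, S)`.

`CellDec M d h`: `M = D 0 ∪ ... ∪ D h` with `D j` closed and
`(D j, D j ∩ (D 0 ∪ ... ∪ D (j - 1))) ≃ (I^(d j), ∂I^(d j))`.  Instances: `HP^m` (`d = 4`, `h = m`),
`CaP²` (`d = 8`, `h = 2`), `S^n` (`d = n`, `h = 1`).
-/

namespace Vale.Agent.P216.H133C

open Set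

/-- `(D, S) ≃ (I^n, ∂I^n)`. -/
structure Cell (M : Type) [TopologicalSpace M] (n : ℕ) (D S : Set M) where
  φ : M → Fin n → ℝ
  ψ : (Fin n → ℝ) → M
  K : M × ℝ → M
  φ_cont : ContinuousOn φ D
  φ_mem : ∀ x ∈ D, ∀ i, φ x i ∈ Icc (0:ℝ) 1
  φ_bd : ∀ x ∈ S, ∃ i, φ x i = 0 ∨ φ x i = 1
  ψ_cont : ContinuousOn ψ {y | ∀ i, y i ∈ Icc (0:ℝ) 1}
  ψ_mem : ∀ y, (∀ i, y i ∈ Icc (0:ℝ) 1) → ψ y ∈ D
  ψ_bd : ∀ y, (∀ i, y i ∈ Icc (0:ℝ) 1) → (∃ i, y i = 0 ∨ y i = 1) → ψ y ∈ S
  φψ : ∀ y, (∀ i, y i ∈ Icc (0:ℝ) 1) → φ (ψ y) = y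
  K_cont : ContinuousOn K (D ×ˢ Icc (0:ℝ) 1)
  K_mem : ∀ x ∈ D, ∀ s ∈ Icc (0:ℝ) 1, K (x, s) ∈ D
  K_bd : ∀ x ∈ S, ∀ s ∈ Icc (0:ℝ) 1, K (x, s) ∈ S
  K_zero : ∀ x ∈ D, K (x, 0) = x
  K_one : ∀ x ∈ D, K (x, 1) = ψ (φ x)

/-- A handle decomposition with one handle of index `d * j` for every `j ≤ h`. -/
structure CellDec (M : Type) [TopologicalSpace M] (d h : ℕ) where
  D : ℕ → Set M
  closed : ∀ j, IsClosed (D j)
  cov : ∀ x, ∃ j ≤ h, x ∈ D j
  cell : ∀ j, j ≤ h → Cell M (d * j) (D j) (D j ∩ {x | ∃ i < j, x ∈ D i})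

namespace Cell

variable {M : Type} [TopologicalSpace M] {n : ℕ} {D S : Set M}

/-- Every cell contracts in `M` to any point, if `M` is path connected. -/
theorem exists_null [PathConnectedSpace M] (C : Cell M n D S) (x₀ : M) :
    ∃ H : M × ℝ → M, ContinuousOn H (D ×ˢ Icc (0:ℝ) 1) ∧ (∀ x ∈ D, H (x, 0) = x) ∧
      ∀ x ∈ D, H (x, 1) = x₀ := by
  classical
  -- a path from the centre of the cell to `x₀`
  let γ : Path (C.ψ fun _ => 0) x₀ := PathConnectedSpace.somePath _ _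
  let H : M × ℝ → M := fun p =>
    if p.2 ≤ 1 / 3 then C.K (p.1, 3 * p.2)
    else if p.2 ≤ 2 / 3 then C.ψ (fun i => (2 - 3 * p.2) * C.φ p.1 i)
    else γ.extend (3 * p.2 - 2)
  have hcl : ∀ a b : ℝ, IsClosed {p : M × ℝ | a ≤ p.2 ∧ p.2 ≤ b} := fun a b =>
    (isClosed_le continuous_const continuous_snd).inter (isClosed_le continuous_snd continuous_const)
  refine ⟨H, ?_, fun x hx => ?_, fun x _ => ?_⟩
  · have h1 : ContinuousOn (fun p : M × ℝ => C.K (p.1, 3 * p.2))
        ((D ×ˢ Icc (0:ℝ) 1) ∩ {p | p.2 ≤ 1 / 3}) := by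
      refine C.K_cont.comp (by fun_prop) fun p hp => ⟨hp.1.1, ?_, ?_⟩
      · have := hp.1.2.1
        change 0 ≤ 3 * p.2
        linarith
      · have : p.2 ≤ 1 / 3 := hp.2
        change 3 * p.2 ≤ 1
        linarith
    have h2 : ContinuousOn (fun p : M × ℝ => C.ψ (fun i => (2 - 3 * p.2) * C.φ p.1 i))
        ((D ×ˢ Icc (0:ℝ) 1) ∩ {p | 1 / 3 ≤ p.2 ∧ p.2 ≤ 2 / 3}) := by
      refine C.ψ_cont.comp ?_ fun p hp i => ?_
      · refine continuousOn_pi.2 fun i => ContinuousOn.mul (by fun_prop) ?_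
        have := (continuous_apply i).comp_continuousOn C.φ_cont
        exact this.comp continuousOn_fst fun p hp => hp.1.1
      · have h := C.φ_mem p.1 hp.1.1 i
        obtain ⟨ha, hb⟩ : 1 / 3 ≤ p.2 ∧ p.2 ≤ 2 / 3 := hp.2
        constructor
        · exact mul_nonneg (by linarith) h.1
        · have := mul_le_mul (by linarith : 2 - 3 * p.2 ≤ 1) h.2 h.1 zero_le_one
          linarith
    have h3 : ContinuousOn (fun p : M × ℝ => γ.extend (3 * p.2 - 2))
        ((D ×ˢ Icc (0:ℝ) 1) ∩ {p | 2 / 3 ≤ p.2}) :=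
      (γ.continuous_extend.comp (by fun_prop)).continuousOn
    -- glue the last two
    have h23 : ContinuousOn (fun p : M × ℝ => if p.2 ≤ 2 / 3 then
        C.ψ (fun i => (2 - 3 * p.2) * C.φ p.1 i) else γ.extend (3 * p.2 - 2))
        ((D ×ˢ Icc (0:ℝ) 1) ∩ {p | 1 / 3 ≤ p.2}) := by
      refine ContinuousOn.if ?_ ?_ ?_
      · rintro p ⟨hp, hp'⟩
        have hp2 : p.2 = 2 / 3 := by
          have := frontier_le_subset_eq (f := fun p : M × ℝ => p.2) (g := fun _ => 2 / 3)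
            continuous_snd continuous_const hp'
          exact this
        have e : (fun i => (2 - 3 * p.2) * C.φ p.1 i) = fun _ => (0:ℝ) := by
          funext i; rw [hp2]; ring
        rw [e, hp2]
        norm_num
      · refine h2.mono fun p hp => ?_
        have h' : p.2 ≤ 2 / 3 := by
          have := closure_le_eq (f := fun p : M × ℝ => p.2) (g := fun _ => (2:ℝ) / 3)
            continuous_snd continuous_const
          have hc : p ∈ closure {b : M × ℝ | b.2 ≤ 2 / 3} := hp.2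
          rw [this] at hc
          exact hc
        exact ⟨hp.1.1, hp.1.2, h'⟩
      · refine h3.mono fun p hp => ?_
        refine ⟨hp.1.1, ?_⟩
        have h' : p ∈ closure {p : M × ℝ | 2 / 3 < p.2} := by
          have := hp.2
          simpa only [not_le] using this
        exact closure_lt_subset_le continuous_const continuous_snd h'
    refine ContinuousOn.if ?_ ?_ ?_
    · rintro p ⟨hp, hp'⟩
      have hp2 : p.2 = 1 / 3 := by
        have := frontier_le_subset_eq (f := fun p : M × ℝ => p.2) (g := fun _ => 1 / 3)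
          continuous_snd continuous_const hp'
        exact this
      have e : (fun i => (2 - 3 * p.2) * C.φ p.1 i) = C.φ p.1 := by
        funext i; rw [hp2]; ring
      rw [e, hp2, if_pos (by norm_num), show (3:ℝ) * (1 / 3) = 1 by norm_num, C.K_one _ hp.1]
    · refine h1.mono fun p hp => ⟨hp.1, ?_⟩
      have := closure_le_eq (f := fun p : M × ℝ => p.2) (g := fun _ => (1:ℝ) / 3)
        continuous_snd continuous_const
      have hc : p ∈ closure {b : M × ℝ | b.2 ≤ 1 / 3} := hp.2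
      rw [this] at hc
      exact hc
    · refine h23.mono fun p hp => ⟨hp.1, ?_⟩
      have h' : p ∈ closure {p : M × ℝ | 1 / 3 < p.2} := by
        have := hp.2
        simpa only [not_le] using this
      exact closure_lt_subset_le continuous_const continuous_snd h'
  · change (if (0:ℝ) ≤ 1 / 3 then C.K (x, 3 * 0) else _) = x
    rw [if_pos (by norm_num), mul_zero, C.K_zero x hx]
  · change (if (1:ℝ) ≤ 1 / 3 then _ else if (1:ℝ) ≤ 2 / 3 then _ else γ.extend (3 * 1 - 2)) = x₀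
    rw [if_neg (by norm_num), if_neg (by norm_num), show (3:ℝ) * 1 - 2 = 1 by norm_num,
      γ.extend_one]

/-- Transport along a homeomorphism. -/
def trans {N : Type} [TopologicalSpace N] (C : Cell M n D S) (e : N ≃ₜ M) :
    Cell N n (e ⁻¹' D) (e ⁻¹' S) where
  φ x := C.φ (e x)
  ψ y := e.symm (C.ψ y)
  K p := e.symm (C.K (e p.1, p.2))
  φ_cont := C.φ_cont.comp e.continuous.continuousOn fun _ h => h
  φ_mem x hx := C.φ_mem _ hx
  φ_bd x hx := C.φ_bd _ hx
  ψ_cont := e.symm.continuous.comp_continuousOn C.ψ_cont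
  ψ_mem y hy := by
    change e (e.symm _) ∈ D
    rw [e.apply_symm_apply]
    exact C.ψ_mem y hy
  ψ_bd y hy hb := by
    change e (e.symm _) ∈ S
    rw [e.apply_symm_apply]
    exact C.ψ_bd y hy hb
  φψ y hy := by rw [e.apply_symm_apply, C.φψ y hy]
  K_cont := by
    refine e.symm.continuous.comp_continuousOn (C.K_cont.comp ?_ fun p hp => ⟨hp.1, hp.2⟩)
    exact (Continuous.prodMk (e.continuous.comp continuous_fst) continuous_snd).continuousOn
  K_mem x hx s hs := by
    change e (e.symm _) ∈ D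
    rw [e.apply_symm_apply]
    exact C.K_mem _ hx s hs
  K_bd x hx s hs := by
    change e (e.symm _) ∈ S
    rw [e.apply_symm_apply]
    exact C.K_bd _ hx s hs
  K_zero x hx := by
    change e.symm (C.K (e x, 0)) = x
    rw [C.K_zero _ hx, e.symm_apply_apply]
  K_one x hx := by
    change e.symm (C.K (e x, 1)) = _
    rw [C.K_one _ hx]

end Cell

namespace CellDec

variable {M : Type} [TopologicalSpace M] {d h : ℕ} (C : CellDec M d h)

/-- The union of the first `j` handles: `L 0 = ∅`, `L (j + 1) = L j ∪ D j`, `L (h + 1) = M`. -/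
def L (j : ℕ) : Set M := {x | ∃ i < j, x ∈ C.D i}

theorem L_zero : C.L 0 = ∅ := by
  ext x
  simp [L]

theorem L_succ (j : ℕ) : C.L (j + 1) = C.L j ∪ C.D j := by
  ext x
  constructor
  · rintro ⟨i, hi, hx⟩
    rcases Nat.lt_succ_iff_lt_or_eq.1 hi with h | rfl
    · exact Or.inl ⟨i, h, hx⟩
    · exact Or.inr hx
  · rintro (⟨i, hi, hx⟩ | hx)
    · exact ⟨i, hi.trans (Nat.lt_succ_self j), hx⟩
    · exact ⟨j, Nat.lt_succ_self j, hx⟩

theorem L_top : C.L (h + 1) = univ := by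
  refine eq_univ_of_forall fun x => ?_
  obtain ⟨j, hj, hx⟩ := C.cov x
  exact ⟨j, Nat.lt_succ_of_le hj, hx⟩

theorem L_mono {i j : ℕ} (hij : i ≤ j) : C.L i ⊆ C.L j :=
  fun _ ⟨l, hl, hx⟩ => ⟨l, hl.trans_le hij, hx⟩

theorem isClosed_L (j : ℕ) : IsClosed (C.L j) := by
  induction j with
  | zero => rw [L_zero]; exact isClosed_empty
  | succ j ih => rw [L_succ]; exact ih.union (C.closed j)

/-- The cell, with the subset written with `L`. -/
def cellL {j : ℕ} (hj : j ≤ h) : Cell M (d * j) (C.D j) (C.D j ∩ C.L j) := C.cell j hj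

/-- Transport along a homeomorphism. -/
def trans {N : Type} [TopologicalSpace N] (e : N ≃ₜ M) : CellDec N d h where
  D j := e ⁻¹' C.D j
  closed j := (C.closed j).preimage e.continuous
  cov x := C.cov (e x)
  cell j hj := (C.cell j hj).trans e

end CellDec

end Vale.Agent.P216.H133C
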