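import Vale.Agent.P216.H133C.Cell

/-!
# P216-C, block [THOM] : isometric frames over the handles (893's form)

`f (a, b)` is a continuous function (such as `tr (a b)`), equal to `1` exactly on the diagonal;
over the handle `D j` the pairs `(M, {a | f (a, b) ≤ κ})`, `b ∈ D j`, are trivialised by `G j (b, ·)`
simultaneously for all levels `κ`.
-/

namespace Vale.Agent.P216.H133C

open Set

structure Frames {M : Type} [TopologicalSpace M] {d h : ℕ} (C : CellDec M d h) where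
  f : M × M → ℝ
  f_cont : Continuous f
  f_le : ∀ p, f p ≤ 1
  f_one : ∀ p, f p = 1 ↔ p.1 = p.2
  p : ℕ → M
  /-- `(b, a) ↦ g_b a` -/
  G : ℕ → M × M → M
  /-- `(b, a) ↦ g_b⁻¹ a` -/
  G' : ℕ → M × M → M
  G_cont : ∀ j ≤ h, ContinuousOn (G j) (C.D j ×ˢ univ)
  G'_cont : ∀ j ≤ h, ContinuousOn (G' j) (C.D j ×ˢ univ)
  GG' : ∀ j ≤ h, ∀ b ∈ C.D j, ∀ a, G j (b, G' j (b, a)) = a
  G'G : ∀ j ≤ h, ∀ b ∈ C.D j, ∀ a, G' j (b, G j (b, a)) = a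
  fG : ∀ j ≤ h, ∀ b ∈ C.D j, ∀ a, f (a, b) = f (G j (b, a), p j)
  /-- a common point of all the handles -/
  b₀ : M
  b₀_mem : ∀ j ≤ h, b₀ ∈ C.D j
  κ₀ : ℝ
  κ₀_lt : κ₀ < 1
  /-- the small balls -/
  ball : ∀ j ≤ h, ∀ κ, κ₀ < κ → κ < 1 →
    Nonempty (Cell M (d * h) {a | κ ≤ f (a, p j)} {a | f (a, p j) = κ})
  /-- the complement of a ball around `p h` can be pushed into `L h` -/
  push : ∀ κ, κ₀ < κ → κ < 1 → ∃ F : M × ℝ → M,
    ContinuousOn F ({a | f (a, p h) ≤ κ} ×ˢ Icc (0:ℝ) 1) ∧ (∀ a, f (a, p h) ≤ κ → F (a, 0) = a) ∧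
    ∀ a, f (a, p h) ≤ κ → F (a, 1) ∈ C.L h

end Vale.Agent.P216.H133C
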