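import Vale.Agent.P216.H133C.ThomDefs
import Vale.Agent.P216.N929.Om2

/-!
# P216-C : exact statements of the outputs of [THOM] and [RING], in list language
-/

open Set

namespace Vale.Agent.P216.H133C

open Vale.Agent.P216.Sl Vale.Agent.P216.PS

/-- The cup powers of a list cochain of degree `d`: `pw ξ d j` has degree `d * j`. -/
noncomputable def pw {k α : Type} [Field k] (ξ : List α → k) (d : ℕ) : ℕ → List α → k
  | 0 => fun l => if l.length = 1 then 1 else 0
  | j + 1 => cup d ξ (pw ξ d j)

/-- [THOM], output: a Thom cochain (normalised, cocycle on small lists, zero as soon as one entry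
`(x, y)` has `dist x y ≥ ρ₁`), not exact on every slice `M × {y}`. -/
def ThomOut (M : Type) [MetricSpace M] (n : ℕ) : Prop :=
  ∀ (k : Type) [Field k], (2 : k) ≠ 0 → ∀ ρ₁ > 0, ∃ τ : N929.Tau k M n ρ₁,
    ∀ y : M, ¬ ExL (univ : Set M) n fun l => τ.f (l.map fun x => (x, y))

/-- [RING], output: a normalised list cocycle of degree `d` whose `j`-th cup power is not exact on
`L (j + 1)`, `j ≤ h`. -/
def RingOut (M : Type) [MetricSpace M] {d h : ℕ} (C : CellDec M d h) : Prop :=
  ∀ (k : Type) [Field k], (2 : k) ≠ 0 → ∃ ξ : List M → k, Nrm ξ ∧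
    (∃ ε > 0, N929.Coc (univ : Set M) ε d ξ) ∧ ∀ j ≤ h, ¬ ExL (C.L (j + 1)) (d * j) (pw ξ d j)

/-- [T5] from the class to the cochain (754's normalisation, cut-off, transport along `e`). -/
def T5 : Prop := T3 → T4 → ∀ (m : ℕ) (M : Type) [MetricSpace M] [CompactSpace M]
  (_ : M ≃ₜ HP (m + 1)), ThomOut M (4 * m)

/-- [RING] for `HP^m` (any metric on a homeomorphic space) -/
def RingHP : Prop := ∀ (m : ℕ) (M : Type) [MetricSpace M] [CompactSpace M]
  (e : M ≃ₜ HP (m + 1)), RingOut M ((cellDecHP m).trans e)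

end Vale.Agent.P216.H133C
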