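import Vale.Agent.P216.H133C.Ext
import Vale.Agent.P216.H456.PCon
import Vale.Agent.P216.H456C.ThomAbs

/-!
# P216-C, block [THOM] : the Thom class of the diagonal from the frames
-/

set_option linter.all false

open Set

namespace Vale.Agent.P216.H133C

open Vale.Agent.P216.AS Vale.Agent.P216.H901 Vale.Agent.P216.H83 Vale.Agent.P216.C313

section Cell

variable {M : Type} [MetricSpace M] {k : Type} [Field k]

theorem noH_abs {E : Type} [MetricSpace E] {X : Set E} {q : ℕ}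
    (h : Subsingleton (Ha (tr E) (on k) X q)) : NoH k X ∅ q := by
  intro z
  obtain ⟨y, rfl⟩ := (absE k X q).surjective z
  rw [Subsingleton.elim y 0]
  exact map_zero _

theorem noH_unit {p : ℕ} (hp : 1 ≤ p) : NoH k (univ : Set Unit) ∅ p := by
  refine noH_abs (H456.ha_subsingleton (D := fun _ => id) (p := ()) ?_ (fun _ _ => rfl)
    (fun _ _ => rfl) (mem_univ _) hp)
  exact ⟨fun _ _ _ _ => mem_univ _, fun _ _ i => i.elim, fun ε hε =>
    ⟨1, one_pos, fun s _ t _ x _ y _ _ _ => by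
      change dist x y < ε
      rw [show x = y from rfl, dist_self]; exact hε⟩⟩

/-- The cohomology of a cell is concentrated in its dimension. -/
theorem noH_cell (h2 : (2 : k) ≠ 0) {n : ℕ} {D S : Set M} (C : Cell M n D S) (hD : IsCompact D)
    (hS : S ⊆ D) {q : ℕ} (hq : q ≠ n) : NoH k D S q := by
  have h1 := noH_prod (E := Unit) (k := k) h2 (Z := univ) (A := ∅) isCompact_univ
    (empty_subset _) C hD hS q fun p hp => noH_unit (by omega)
  have hf : IsMap (tr _) (tr _) D ((univ : Set Unit) ×ˢ D) (fun x : M => ((), x)) :=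
    isMap_of hD (by fun_prop) fun x hx => ⟨mem_univ _, hx⟩
  have hg : IsMap (tr _) (tr _) ((univ : Set Unit) ×ˢ D) D (fun p : Unit × M => p.2) :=
    isMap_of (isCompact_univ.prod hD) (by fun_prop) fun x hx => hx.2
  refine noH_of_inv hf ?_ hg ?_ hS (fun p hp => hp.1) (fun x _ => rfl) q h1
  · exact fun x hx => ⟨⟨mem_univ _, hS hx⟩, Or.inr hx⟩
  · rintro p ⟨-, h | h⟩
    · exact h.elim
    · exact h

end Cell

section Thom

variable {M : Type} [MetricSpace M] [CompactSpace M] {d h : ℕ} {C : CellDec M d h}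
  (F : Frames C) {k : Type} [Field k] {κ : ℝ}

/-- `{a | f (a, p j) ≤ κ}` -/
def Frames.T (κ : ℝ) (j : ℕ) : Set M := {a | F.f (a, F.p j) ≤ κ}

/-- `{(a, b) | f (a, b) ≤ κ, b ∈ L}` -/
def Frames.TT (κ : ℝ) (L : Set M) : Set (M × M) := {p | F.f p ≤ κ ∧ p.2 ∈ L}

theorem Frames.isClosed_T (j : ℕ) : IsClosed (F.T κ j) :=
  isClosed_le (F.f_cont.comp (by fun_prop)) continuous_const

theorem Frames.isCompact_T (j : ℕ) : IsCompact (F.T κ j) := (F.isClosed_T j).isCompact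

theorem Frames.isCompact_TT {L : Set M} (hL : IsClosed L) : IsCompact (F.TT κ L) :=
  ((isClosed_le F.f_cont continuous_const).inter (hL.preimage continuous_snd)).isCompact

/-- (A) -/
theorem Frames.noH_T (h2 : (2 : k) ≠ 0) (hκ : F.κ₀ < κ) (hκ1 : κ < 1) {j : ℕ} (hj : j ≤ h) {q : ℕ}
    (hq : q ≠ d * h) : NoH k univ (F.T κ j) q := by
  obtain ⟨B⟩ := F.ball j hj κ hκ hκ1
  have hc : IsClosed {a | κ ≤ F.f (a, F.p j)} :=
    isClosed_le continuous_const (F.f_cont.comp (by fun_prop))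
  refine noH_exc (k := k) h2 (F.isCompact_T j) (D := {a | κ ≤ F.f (a, F.p j)}) hc.isCompact ?_
    (N₀ := {a | F.f (a, F.p j) = κ}) ?_ q
    (noH_cell h2 B hc.isCompact (fun a ha => (show F.f (a, F.p j) = κ from ha).ge) hq)
  · ext a
    simp only [mem_univ, Frames.T, mem_union, mem_ofPred_eq, true_iff]
    exact le_total _ _
  · ext a
    simp only [Frames.T, mem_inter_iff, mem_ofPred_eq]
    exact ⟨fun h => ⟨h.le, h.ge⟩, fun h => le_antisymm h.1 h.2⟩

/-- (B) the pairs over a handle -/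
theorem Frames.noH_handle (h2 : (2 : k) ≠ 0) (hκ : F.κ₀ < κ) (hκ1 : κ < 1) {j : ℕ} (hj : j ≤ h)
    {q : ℕ} (hq : q ≠ d * h + d * j) :
    NoH k ((univ : Set M) ×ˢ C.D j)
      {p | p ∈ (univ : Set M) ×ˢ C.D j ∧ (F.f p ≤ κ ∨ p.2 ∈ C.D j ∩ C.L j)} q := by
  have cD : IsCompact (C.D j) := (C.closed j).isCompact
  have cU : IsCompact (univ : Set M) := isCompact_univ
  have h1 := noH_prod (k := k) h2 (Z := (univ : Set M)) (A := F.T κ j) cU (subset_univ _)
    (C.cellL hj) cD inter_subset_left q fun p hp => F.noH_T h2 hκ hκ1 hj (by omega)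
  have hf : IsMap (tr _) (tr _) ((univ : Set M) ×ˢ C.D j) ((univ : Set M) ×ˢ C.D j)
      (fun p : M × M => (F.G j (p.2, p.1), p.2)) := by
    refine isMap_of (cU.prod cD) ?_ fun p hp => ⟨mem_univ _, hp.2⟩
    refine ContinuousOn.prodMk ((F.G_cont j hj).comp (by fun_prop) fun p hp => ?_) (by fun_prop)
    exact ⟨hp.2, mem_univ _⟩
  have hg : IsMap (tr _) (tr _) ((univ : Set M) ×ˢ C.D j) ((univ : Set M) ×ˢ C.D j)
      (fun p : M × M => (F.G' j (p.2, p.1), p.2)) := by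
    refine isMap_of (cU.prod cD) ?_ fun p hp => ⟨mem_univ _, hp.2⟩
    refine ContinuousOn.prodMk ((F.G'_cont j hj).comp (by fun_prop) fun p hp => ?_) (by fun_prop)
    exact ⟨hp.2, mem_univ _⟩
  refine noH_of_inv hf ?_ hg ?_ (fun p hp => hp.1) (fun p hp => hp.1) ?_ q h1
  · rintro ⟨a, b⟩ ⟨hp, h' | h'⟩
    · refine ⟨⟨mem_univ _, hp.2⟩, Or.inl ?_⟩
      change F.f (F.G j (b, a), F.p j) ≤ κ
      rw [← F.fG j hj b hp.2]
      exact h'
    · exact ⟨⟨mem_univ _, hp.2⟩, Or.inr h'⟩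
  · rintro ⟨a, b⟩ ⟨hp, h' | h'⟩
    · refine ⟨⟨mem_univ _, hp.2⟩, Or.inl ?_⟩
      change F.f (F.G' j (b, a), b) ≤ κ
      rw [F.fG j hj b hp.2, F.GG' j hj b hp.2]
      exact h'
    · exact ⟨⟨mem_univ _, hp.2⟩, Or.inr h'⟩
  · rintro ⟨a, b⟩ hp
    change (F.G' j (b, F.G j (b, a)), b) = (a, b)
    rw [F.G'G j hj b hp.2]

theorem Frames.TT_mono {L L' : Set M} (hL : L ⊆ L') : F.TT κ L ⊆ F.TT κ L' :=
  fun _ hp => ⟨hp.1, hL hp.2⟩

theorem Frames.TT_sub {L : Set M} : F.TT κ L ⊆ (univ : Set M) ×ˢ L := by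
  intro p hp
  exact ⟨mem_univ _, hp.2⟩

/-- (C) extension over the next handle -/
theorem Frames.extend (h2 : (2 : k) ≠ 0) (hκ : F.κ₀ < κ) (hκ1 : κ < 1) (hd : 2 ≤ d) {j : ℕ}
    (hj1 : 1 ≤ j) (hj : j ≤ h)
    (y : Hr (tr (M × M)) (on k) ((univ : Set M) ×ˢ C.L j) (F.TT κ (C.L j)) (d * h)) :
    ∃ x : Hr (tr (M × M)) (on k) ((univ : Set M) ×ˢ C.L (j + 1)) (F.TT κ (C.L (j + 1))) (d * h),
      resR (prod_mono_right (C.L_mono (Nat.le_succ j)))
        (F.TT_mono (C.L_mono (Nat.le_succ j))) (d * h) x = y := by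
  have cU : IsCompact (univ : Set M) := isCompact_univ
  have cL : IsCompact ((univ : Set M) ×ˢ C.L j) := cU.prod (C.isClosed_L j).isCompact
  have cD : IsCompact ((univ : Set M) ×ˢ C.D j) := cU.prod (C.closed j).isCompact
  have cT : IsCompact (F.TT κ (C.L (j + 1))) := F.isCompact_TT (C.isClosed_L _)
  refine ext_step (k := k) h2 cT cL F.TT_sub
    (prod_mono_right (C.L_mono (Nat.le_succ j))) ?_ _ (d * h) ?_ y
  · ext p
    constructor
    · exact fun hp => ⟨⟨hp.1, C.L_mono (Nat.le_succ j) hp.2⟩, mem_univ _, hp.2⟩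
    · exact fun hp => ⟨hp.1.1, hp.2.2⟩
  · refine noH_exc (k := k) h2 (cT.union cL) cD ?_ ?_ (d * h + 1)
      (F.noH_handle h2 hκ hκ1 hj (by
        have : 2 ≤ d * j := le_trans hd (Nat.le_mul_of_pos_right d hj1)
        omega))
    · ext p
      constructor
      · rintro ⟨-, hp⟩
        rw [C.L_succ] at hp
        rcases hp with hp | hp
        · exact Or.inl (Or.inr ⟨mem_univ _, hp⟩)
        · exact Or.inr ⟨mem_univ _, hp⟩
      · rintro ((hp | hp) | hp)
        · exact ⟨mem_univ _, hp.2⟩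
        · exact ⟨mem_univ _, C.L_mono (Nat.le_succ j) hp.2⟩
        · refine ⟨mem_univ _, ?_⟩
          rw [C.L_succ]
          exact Or.inr hp.2
    · ext p
      constructor
      · rintro ⟨hp, h' | h'⟩
        · exact ⟨Or.inl ⟨h', by rw [C.L_succ]; exact Or.inr hp.2⟩, hp⟩
        · exact ⟨Or.inr ⟨mem_univ _, h'.2⟩, hp⟩
      · rintro ⟨h' | h', hp⟩
        · exact ⟨hp, Or.inl h'.1⟩
        · exact ⟨hp, Or.inr ⟨hp.2, h'.2⟩⟩

/-! ### The construction -/

/-- The slice `a ↦ (a, b)`. -/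
def slb (b a : M) : M × M := (a, b)

theorem isMap_slb {L : Set M} {b : M} (hb : b ∈ L) :
    IsMap (tr M) (tr (M × M)) (univ : Set M) ((univ : Set M) ×ˢ L) (slb b) where
  mapsX _ _ := ⟨mem_univ _, hb⟩
  eqv i := i.elim
  uc ε hε := ⟨ε, hε, fun x _ y _ h => by
    change dist (x, b) (y, b) < ε
    rw [Prod.dist_eq, dist_self]
    exact max_lt h hε⟩

/-- Pull back by a homeomorphism is injective. -/
theorem pull_ne_zero {X Y : Set M} {q : ℕ} {f g : M → M} (hf : IsMap (tr M) (tr M) X Y f)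
    (hg : IsMap (tr M) (tr M) Y X g) (h : ∀ y ∈ Y, f (g y) = y)
    {z : Hr (tr M) (on k) Y ∅ q} (hz : z ≠ 0) :
    pullR (on k) hf (empty_subset _) (mapsTo_empty _ _) q z ≠ 0 := by
  intro h0
  apply hz
  have e := pullR_comp (χ := on k) hf hg (empty_subset _) (empty_subset _) (mapsTo_empty _ _)
    (mapsTo_empty _ ∅) z
  rw [h0, map_zero] at e
  rw [← e, pullR_eq_resR (χ := on k) subset_rfl subset_rfl (empty_subset _) (hf.comp hg) _ h]
  exact (Hinc_refl _ _ z).symm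

theorem lesA_pullR {E E' : Type} [MetricSpace E] [MetricSpace E'] {X A : Set E} {Y B : Set E'}
    {f : E → E'} (hf : IsMap (tr E) (tr E') X Y f) (hA : A ⊆ X) (hfA : MapsTo f A B) (q : ℕ)
    (z : Hr (tr E') (on k) Y B q) :
    lesA k X A q (pullR (on k) hf hA hfA q z) =
      pullR (on k) hf (empty_subset _) (mapsTo_empty _ _) q (lesA k Y B q z) := by
  obtain ⟨c, hc, rfl⟩ := H.exists_mk z
  rfl

variable (c1 : NoH k (C.L h) ∅ (d * h))
  (c2 : ∃ x : Hr (tr M) (on k) (univ : Set M) ∅ (d * h), x ≠ 0)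

include c1 c2

/-- a class relative to the complement of the small ball around `p h` -/
theorem Frames.class_h (hκ : F.κ₀ < κ) (hκ1 : κ < 1) :
    ∃ x : Hr (tr M) (on k) univ (F.T κ h) (d * h), lesA k univ (F.T κ h) (d * h) x ≠ 0 := by
  obtain ⟨z, hz⟩ := c2
  have hT : F.T κ h ⊆ univ := subset_univ _
  have key : lesB k hT (d * h) z = 0 := by
    obtain ⟨P, hP, hP0, hP1⟩ := F.push κ hκ hκ1
    have hD : IsHtpy (tr M) (tr M) (F.T κ h) (univ : Set M) (fun s a => P (a, s)) := by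
      refine IsHtpy.of_continuousOn (F.isCompact_T h) ?_ (fun _ _ _ _ => mem_univ _)
        fun _ _ i => i.elim
      exact hP.comp (by fun_prop) fun q hq => ⟨hq.2, hq.1⟩
    have e1 := pullR_homotopy (χ := on k) hD (empty_subset _) (fun _ _ => mapsTo_empty _ ∅) (d * h)
    have e2 : pullR (on k) hD.zero (empty_subset _) (mapsTo_empty _ ∅) (d * h) z =
        lesB k hT (d * h) z := by
      rw [pullR_eq_resR (χ := on k) hT subset_rfl (empty_subset _) hD.zero _ fun a ha => hP0 a ha]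
      rfl
    have hm : IsMap (tr M) (tr M) (F.T κ h) (C.L h) (fun a => P (a, 1)) :=
      hD.one.mono le_rfl fun a ha => hP1 a ha
    have e3 : pullR (on k) hD.one (empty_subset _) (mapsTo_empty _ ∅) (d * h) z =
        pullR (on k) hm (empty_subset _) (mapsTo_empty _ ∅) (d * h)
          (resR (subset_univ (C.L h)) subset_rfl (d * h) z) := by
      obtain ⟨c, hc, rfl⟩ := H.exists_mk z
      rfl
    rw [← e2, ← e1, e3, show resR (subset_univ (C.L h)) subset_rfl (d * h) z = 0 from c1 _,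
      map_zero]
  obtain ⟨x, hx⟩ := (les_ex1 k hT (d * h) z).1 key
  exact ⟨x, by rw [hx]; exact hz⟩

theorem Frames.class_0 (hκ : F.κ₀ < κ) (hκ1 : κ < 1) :
    ∃ x : Hr (tr M) (on k) univ (F.T κ 0) (d * h), lesA k univ (F.T κ 0) (d * h) x ≠ 0 := by
  obtain ⟨z, hz⟩ := F.class_h c1 c2 hκ hκ1
  have hb0 := F.b₀_mem 0 (Nat.zero_le _)
  have hbh := F.b₀_mem h le_rfl
  have m1 : ∀ j (hj : j ≤ h), IsMap (tr M) (tr M) univ univ (fun a => F.G j (F.b₀, a)) :=
    fun j hj => isMap_of isCompact_univ ((F.G_cont j hj).comp (by fun_prop) fun a _ =>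
      ⟨F.b₀_mem j hj, mem_univ _⟩) fun _ _ => mem_univ _
  have m2 : ∀ j (hj : j ≤ h), IsMap (tr M) (tr M) univ univ (fun a => F.G' j (F.b₀, a)) :=
    fun j hj => isMap_of isCompact_univ ((F.G'_cont j hj).comp (by fun_prop) fun a _ =>
      ⟨F.b₀_mem j hj, mem_univ _⟩) fun _ _ => mem_univ _
  have hf := (m1 h le_rfl).comp (m2 0 (Nat.zero_le _))
  have hg := (m1 0 (Nat.zero_le _)).comp (m2 h le_rfl)
  have hT : MapsTo ((fun a => F.G h (F.b₀, a)) ∘ fun a => F.G' 0 (F.b₀, a)) (F.T κ 0) (F.T κ h) := by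
    intro a ha
    change F.f (F.G h (F.b₀, F.G' 0 (F.b₀, a)), F.p h) ≤ κ
    rw [← F.fG h le_rfl _ hbh, F.fG 0 (Nat.zero_le _) _ hb0, F.GG' 0 (Nat.zero_le _) _ hb0]
    exact ha
  refine ⟨pullR (on k) hf (subset_univ _) hT (d * h) z, ?_⟩
  rw [lesA_pullR]
  refine pull_ne_zero hf hg (fun y _ => ?_) hz
  change F.G h (F.b₀, F.G' 0 (F.b₀, F.G 0 (F.b₀, F.G' h (F.b₀, y)))) = y
  rw [F.G'G 0 (Nat.zero_le _) _ hb0, F.GG' h le_rfl _ hbh]

theorem Frames.class_L (h2 : (2 : k) ≠ 0) (hκ : F.κ₀ < κ) (hκ1 : κ < 1) (hd : 2 ≤ d) :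
    ∀ j, j ≤ h → ∃ (x : Hr (tr (M × M)) (on k) ((univ : Set M) ×ˢ C.L (j + 1))
      (F.TT κ (C.L (j + 1))) (d * h)) (hb : F.b₀ ∈ C.L (j + 1)),
      pullR (on k) (isMap_slb hb) (empty_subset _) (mapsTo_empty _ ∅) (d * h)
        (lesA k _ _ (d * h) x) ≠ 0
  | 0, hj => by
    obtain ⟨z, hz⟩ := F.class_0 c1 c2 hκ hκ1
    have hb0 := F.b₀_mem 0 (Nat.zero_le _)
    have hL : C.L (0 + 1) = C.D 0 := by rw [C.L_succ, C.L_zero, empty_union]
    have hb : F.b₀ ∈ C.L (0 + 1) := by rw [hL]; exact hb0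
    have hm : IsMap (tr (M × M)) (tr M) ((univ : Set M) ×ˢ C.L (0 + 1)) univ
        (fun p => F.G 0 (p.2, p.1)) := by
      rw [hL]
      refine isMap_of (isCompact_univ.prod (C.closed 0).isCompact)
        ((F.G_cont 0 hj).comp (by fun_prop) fun p hp => ⟨hp.2, mem_univ _⟩) fun _ _ => mem_univ _
    have hT : MapsTo (fun p : M × M => F.G 0 (p.2, p.1)) (F.TT κ (C.L (0 + 1))) (F.T κ 0) := by
      rw [hL]
      rintro ⟨a, b⟩ ⟨h1, h3⟩
      change F.f (F.G 0 (b, a), F.p 0) ≤ κ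
      rw [← F.fG 0 hj b h3]
      exact h1
    refine ⟨pullR (on k) hm F.TT_sub hT (d * h) z, hb, ?_⟩
    rw [lesA_pullR]
    have e := pullR_comp (χ := on k) hm (isMap_slb hb) (empty_subset _) (empty_subset _)
      (mapsTo_empty _ _) (mapsTo_empty _ ∅) (lesA k univ (F.T κ 0) (d * h) z)
    rw [← e]
    have m2 : IsMap (tr M) (tr M) univ univ (fun a => F.G' 0 (F.b₀, a)) :=
      isMap_of isCompact_univ ((F.G'_cont 0 hj).comp (by fun_prop) fun a _ =>
        ⟨hb0, mem_univ _⟩) fun _ _ => mem_univ _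
    refine pull_ne_zero (hm.comp (isMap_slb hb)) m2 (fun y _ => ?_) hz
    change F.G 0 (F.b₀, F.G' 0 (F.b₀, y)) = y
    rw [F.GG' 0 hj _ hb0]
  | j + 1, hj => by
    obtain ⟨y, hb, hy⟩ := Frames.class_L h2 hκ hκ1 hd j (by omega)
    obtain ⟨x, hx⟩ := F.extend h2 hκ hκ1 hd (Nat.succ_pos j) hj y
    refine ⟨x, C.L_mono (Nat.le_succ _) hb, ?_⟩
    have e : pullR (on k) (isMap_slb (C.L_mono (Nat.le_succ (j + 1)) hb)) (empty_subset _)
        (mapsTo_empty _ ∅) (d * h) (lesA k _ _ (d * h) x) =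
      pullR (on k) (isMap_slb hb) (empty_subset _) (mapsTo_empty _ ∅) (d * h)
        (lesA k _ _ (d * h) y) := by
      rw [← hx]
      obtain ⟨c, hc, rfl⟩ := H.exists_mk x
      rfl
    rw [e]
    exact hy

/-- **The Thom class.** -/
theorem Frames.thom_class [PathConnectedSpace M] (h2 : (2 : k) ≠ 0) (hκ : F.κ₀ < κ) (hκ1 : κ < 1)
    (hd : 2 ≤ d) : ∃ x : Hr (tr (M × M)) (on k) (univ : Set (M × M)) {p | F.f p ≤ κ} (d * h),
      H456C.SlNe x := by
  obtain ⟨x, hb, hx⟩ := F.class_L c1 c2 h2 hκ hκ1 hd h le_rfl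
  have hU : (univ : Set (M × M)) ⊆ (univ : Set M) ×ˢ C.L (h + 1) := by
    rw [C.L_top]
    exact fun _ _ => ⟨mem_univ _, mem_univ _⟩
  have hA : {p | F.f p ≤ κ} ⊆ F.TT κ (C.L (h + 1)) := by
    rw [C.L_top]
    exact fun _ hp => ⟨hp, mem_univ _⟩
  refine ⟨resR hU hA (d * h) x, fun b => ?_⟩
  have e1 : pullR (on k) (H456C.isMap_slM F.b₀) (empty_subset _) (mapsTo_empty _ ∅) (d * h)
      (lesA k univ {p | F.f p ≤ κ} (d * h) (resR hU hA (d * h) x)) =
      pullR (on k) (isMap_slb hb) (empty_subset _) (mapsTo_empty _ ∅) (d * h)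
        (lesA k _ _ (d * h) x) := by
    obtain ⟨c, hc, rfl⟩ := H.exists_mk x
    rfl
  let γ : Path F.b₀ b := PathConnectedSpace.somePath _ _
  have hD : IsHtpy (tr M) (tr (M × M)) (univ : Set M) (univ : Set (M × M))
      (fun s a => (a, γ.extend s)) := by
    refine IsHtpy.of_continuousOn isCompact_univ ?_ (fun _ _ _ _ => mem_univ _)
      fun _ _ i => i.elim
    exact (Continuous.prodMk continuous_snd (γ.continuous_extend.comp continuous_fst)).continuousOn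
  have e2 := pullR_homotopy (χ := on k) hD (empty_subset _) (fun _ _ => mapsTo_empty _ ∅) (d * h)
  have e3 : pullR (on k) hD.zero (empty_subset _) (mapsTo_empty _ ∅) (d * h) =
      pullR (on k) (H456C.isMap_slM F.b₀) (empty_subset _) (mapsTo_empty _ ∅) (d * h) :=
    pullR_congr _ _ _ _ _ fun a _ => by
      change (a, γ.extend 0) = (a, F.b₀)
      rw [γ.extend_zero]
  have e4 : pullR (on k) hD.one (empty_subset _) (mapsTo_empty _ ∅) (d * h) =
      pullR (on k) (H456C.isMap_slM b) (empty_subset _) (mapsTo_empty _ ∅) (d * h) :=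
    pullR_congr _ _ _ _ _ fun a _ => by
      change (a, γ.extend 1) = (a, b)
      rw [γ.extend_one]
  rw [← e4, e2, e3, e1]
  exact hx

end Thom

end Vale.Agent.P216.H133C
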