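import Vale.Agent.P216.H133C.DefEq

/-!
# `HP^1` is homeomorphic to `S^4`
-/

open Set Quaternion

namespace Vale.Agent.P216.H133C

/-- the map to the sphere -/
noncomputable def toS4v (P : Mt 2) : EuclideanSpace ℝ (Fin 5) :=
  WithLp.toLp 2 ![(P 0 0).re - (P 1 1).re, 2 * (P 0 1).re, 2 * (P 0 1).imI, 2 * (P 0 1).imJ,
    2 * (P 0 1).imK]

theorem continuous_toS4v : Continuous toS4v := by
  unfold toS4v
  refine (PiLp.continuous_toLp 2 _).comp ?_
  refine continuous_pi fun i => ?_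
  have h00 : Continuous fun P : Mt 2 => P 0 0 := (continuous_apply 0).comp (continuous_apply 0)
  have h11 : Continuous fun P : Mt 2 => P 1 1 := (continuous_apply 1).comp (continuous_apply 1)
  have h01 : Continuous fun P : Mt 2 => P 0 1 := (continuous_apply 1).comp (continuous_apply 0)
  fin_cases i
  · exact (Quaternion.continuous_re.comp h00).sub (Quaternion.continuous_re.comp h11)
  · exact continuous_const.mul (Quaternion.continuous_re.comp h01)
  · exact continuous_const.mul (Quaternion.continuous_imI.comp h01)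
  · exact continuous_const.mul (Quaternion.continuous_imJ.comp h01)
  · exact continuous_const.mul (Quaternion.continuous_imK.comp h01)

theorem sq_sum (q : Quaternion ℝ) : ‖q‖ ^ 2 = q.re ^ 2 + q.imI ^ 2 + q.imJ ^ 2 + q.imK ^ 2 := by
  rw [sq ‖q‖, ← Quaternion.normSq_eq_norm_mul_self, Quaternion.normSq_def']

theorem norm_toS4v {P : Mt 2} (hP : P ∈ HP 2) : ‖toS4v P‖ = 1 := by
  obtain ⟨v, hv, rfl⟩ := hP
  have h1 : ‖toS4v (prj v)‖ ^ 2 = 1 := by
    rw [EuclideanSpace.norm_sq_eq]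
    simp only [toS4v, Fin.sum_univ_five, Matrix.cons_val, Real.norm_eq_abs, sq_abs]
    have a0 := dg_prj v 0
    have a1 := dg_prj v 1
    have a2 := norm_prj v 0 1
    have a3 := sq_sum (prj v 0 1)
    rw [ns, Fin.sum_univ_two] at hv
    rw [a2] at a3
    unfold dg at a0 a1
    rw [a0, a1]
    nlinarith [a3, hv]
  have h2 := norm_nonneg (toS4v (prj v))
  nlinarith

noncomputable def toS4 (P : HP 2) : Metric.sphere (0 : EuclideanSpace ℝ (Fin 5)) 1 :=
  ⟨toS4v P.1, by rw [mem_sphere_zero_iff_norm]; exact norm_toS4v P.2⟩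

theorem continuous_toS4 : Continuous toS4 :=
  (continuous_toS4v.comp continuous_subtype_val).subtype_mk _

theorem entries {P : Mt 2} (hP : P ∈ HP 2) : P 0 0 = (((P 0 0).re : ℝ) : Quaternion ℝ) ∧
    P 1 1 = (((P 1 1).re : ℝ) : Quaternion ℝ) ∧ P 1 0 = star (P 0 1) ∧
    (P 0 0).re + (P 1 1).re = 1 := by
  have h := sum_dg hP
  rw [Fin.sum_univ_two] at h
  obtain ⟨v, hv, rfl⟩ := hP
  refine ⟨?_, ?_, ?_, h⟩
  · rw [prj, mul_star_self', Quaternion.re_coe]
  · rw [prj, mul_star_self', Quaternion.re_coe]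
  · rw [prj, prj, star_mul, star_star]

theorem toS4_injective : Function.Injective toS4 := by
  intro P Q h
  have h1 : toS4v P.1 = toS4v Q.1 := congrArg Subtype.val h
  have h2 : ∀ i, toS4v P.1 i = toS4v Q.1 i := fun i => by rw [h1]
  have e0 := h2 0
  have e1 := h2 1
  have e2 := h2 2
  have e3 := h2 3
  have e4 := h2 4
  simp only [toS4v, Matrix.cons_val] at e0 e1 e2 e3 e4
  obtain ⟨p0, p1, p2, p3⟩ := entries P.2
  obtain ⟨q0, q1, q2, q3⟩ := entries Q.2
  have f0 : (P.1 0 0).re = (Q.1 0 0).re := by linarith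
  have f1 : (P.1 1 1).re = (Q.1 1 1).re := by linarith
  have f2 : P.1 0 1 = Q.1 0 1 := by
    ext
    · linarith
    · linarith
    · linarith
    · linarith
  refine Subtype.ext ?_
  funext i j
  fin_cases i <;> fin_cases j
  · change P.1 0 0 = Q.1 0 0
    rw [p0, q0, f0]
  · exact f2
  · change P.1 1 0 = Q.1 1 0
    rw [p2, q2, f2]
  · change P.1 1 1 = Q.1 1 1
    rw [p1, q1, f1]

theorem toS4_surjective : Function.Surjective toS4 := by
  rintro ⟨x, hx⟩
  rw [mem_sphere_zero_iff_norm] at hx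
  have hx2 : ‖x‖ ^ 2 = 1 := by rw [hx, one_pow]
  rw [EuclideanSpace.norm_sq_eq] at hx2
  simp only [Fin.sum_univ_five, Real.norm_eq_abs, sq_abs] at hx2
  by_cases h0 : x 0 = -1
  · have hz : x 1 = 0 ∧ x 2 = 0 ∧ x 3 = 0 ∧ x 4 = 0 := by
      rw [h0] at hx2
      refine ⟨?_, ?_, ?_, ?_⟩ <;> nlinarith [sq_nonneg (x 1), sq_nonneg (x 2), sq_nonneg (x 3),
        sq_nonneg (x 4)]
    refine ⟨⟨prj ![0, 1], ![0, 1], by simp [ns, Fin.sum_univ_two], rfl⟩, ?_⟩
    refine Subtype.ext ?_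
    change toS4v (prj ![0, 1]) = x
    ext i
    fin_cases i
    · simp [toS4v, prj, h0]
    · simp [toS4v, prj, hz.1]
    · simp [toS4v, prj, hz.2.1]
    · simp [toS4v, prj, hz.2.2.1]
    · simp [toS4v, prj, hz.2.2.2]
  · have h1 : -1 ≤ x 0 := by
      nlinarith [sq_nonneg (x 1), sq_nonneg (x 2), sq_nonneg (x 3), sq_nonneg (x 4)]
    have h2 : 0 < (x 0 + 1) / 2 := by
      have : -1 < x 0 := lt_of_le_of_ne h1 (Ne.symm h0)
      linarith
    set a : ℝ := (x 0 + 1) / 2 with ha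
    set r : ℝ := √a with hr
    have hr0 : 0 < r := Real.sqrt_pos.2 h2
    have hr2 : r * r = a := Real.mul_self_sqrt h2.le
    set q : Quaternion ℝ := ⟨x 1 / 2, x 2 / 2, x 3 / 2, x 4 / 2⟩ with hq
    have hq2 : ‖q‖ ^ 2 = a * (1 - a) := by
      rw [sq_sum]
      simp only [hq]
      rw [ha]
      linarith
    have hri : r⁻¹ ^ 2 * a = 1 := by
      rw [← hr2]
      field_simp
    let v : Fin 2 → Quaternion ℝ := ![(r : Quaternion ℝ), r⁻¹ • star q]
    have hv0 : ‖v 0‖ ^ 2 = a := by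
      change ‖(r : Quaternion ℝ)‖ ^ 2 = a
      rw [Quaternion.norm_coe, Real.norm_eq_abs, sq_abs, sq, hr2]
    have hv1 : ‖v 1‖ ^ 2 = 1 - a := by
      change ‖r⁻¹ • star q‖ ^ 2 = 1 - a
      rw [norm_smul, Quaternion.norm_star, mul_pow, hq2, Real.norm_eq_abs, sq_abs, ← mul_assoc,
        hri, one_mul]
    have hv : ns v = 1 := by
      rw [ns, Fin.sum_univ_two, hv0, hv1]
      ring
    have h01 : prj v 0 1 = q := by
      change (r : Quaternion ℝ) * star (r⁻¹ • star q) = q
      rw [Quaternion.star_smul, star_star, Quaternion.coe_mul_eq_smul, smul_smul,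
        mul_inv_cancel₀ hr0.ne', one_smul]
    have h00 : (prj v 0 0).re = a := by
      have := dg_prj v 0
      unfold dg at this
      rw [this, hv0]
    have h11 : (prj v 1 1).re = 1 - a := by
      have := dg_prj v 1
      unfold dg at this
      rw [this, hv1]
    refine ⟨⟨prj v, v, hv, rfl⟩, Subtype.ext ?_⟩
    change toS4v (prj v) = x
    have e : toS4v (prj v) = WithLp.toLp 2 ![a - (1 - a), 2 * q.re, 2 * q.imI, 2 * q.imJ,
        2 * q.imK] := by
      rw [toS4v, h00, h11, h01]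
    rw [e]
    ext i
    fin_cases i
    · simp [ha]; ring
    · simp [hq]; ring
    · simp [hq]; ring
    · simp [hq]; ring
    · simp [hq]; ring

/-- `HP^1` is homeomorphic to `S^4`. -/
noncomputable def homeoS4 : HP 2 ≃ₜ Metric.sphere (0 : EuclideanSpace ℝ (Fin 5)) 1 :=
  Continuous.homeoOfEquivCompactToT2 (f := Equiv.ofBijective toS4 ⟨toS4_injective,
    toS4_surjective⟩) continuous_toS4

/-- `HP^1` is homeomorphic to `S^4`. -/
noncomputable def homeoHPm1 : HPm 1 ≃ₜ Metric.sphere (0 : EuclideanSpace ℝ (Fin 5)) 1 :=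
  (homeoHPm 1).trans homeoS4

end Vale.Agent.P216.H133C
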