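import Mathlib

/-!
# P216-C : simple connectivity from open covers (van Kampen, surjectivity half)
-/

open Set Topology unitInterval

namespace Vale.Agent.P216.H133C

section

variable {X : Type*} [TopologicalSpace X]

/-- Two paths from the base point inside `U` are homotopic in `X`. -/
theorem eq_of_loops {U : Set X} {x₀ x : X}
    (hN : ∀ γ : Path x₀ x₀, (∀ s, γ s ∈ U) → γ.Homotopic (Path.refl x₀)) (a b : Path x₀ x)
    (ha : ∀ s, a s ∈ U) (hb : ∀ s, b s ∈ U) : Path.Homotopic.Quotient.mk a = Path.Homotopic.Quotient.mk b := by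
  have h1 : (a.trans b.symm).Homotopic (Path.refl x₀) := by
    refine hN _ fun s => ?_
    have h2 : (a.trans b.symm) s ∈ range (a.trans b.symm) := mem_range_self s
    rw [Path.trans_range] at h2
    rcases h2 with ⟨r, hr⟩ | ⟨r, hr⟩
    · rw [← hr]; exact ha r
    · rw [← hr, Path.symm_apply]; exact hb _
  have h3 : Path.Homotopic.Quotient.trans (Path.Homotopic.Quotient.mk a) (Path.Homotopic.Quotient.symm (Path.Homotopic.Quotient.mk b)) = Path.Homotopic.Quotient.refl x₀ := by
    rw [← Path.Homotopic.Quotient.mk_symm, ← Path.Homotopic.Quotient.mk_trans, ← Path.Homotopic.Quotient.mk_refl]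
    exact Path.Homotopic.Quotient.eq.2 h1
  calc Path.Homotopic.Quotient.mk a
      = Path.Homotopic.Quotient.trans (Path.Homotopic.Quotient.trans (Path.Homotopic.Quotient.mk a) (Path.Homotopic.Quotient.symm (Path.Homotopic.Quotient.mk b)))
        (Path.Homotopic.Quotient.mk b) := by simp
    _ = Path.Homotopic.Quotient.mk b := by rw [h3]; simp

theorem cast_aux {a b x₀ : X} (ha : a = x₀) (hb : b = x₀) (γ : Path x₀ x₀)
    (h : Path.Homotopic.Quotient.mk (((Path.refl x₀).cast rfl ha).trans (γ.cast ha hb)) =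
      Path.Homotopic.Quotient.mk ((Path.refl x₀).cast rfl hb)) : γ.Homotopic (Path.refl x₀) := by
  subst ha hb
  rw [Path.Homotopic.Quotient.mk_trans] at h
  simp only [Path.cast_rfl_rfl, Path.Homotopic.Quotient.mk_refl] at h
  rw [← Path.Homotopic.Quotient.eq]
  simpa using h

variable {ι : Type*} {U : ι → Set X} {x₀ : X}

theorem loops_of_cover (hU : ∀ i, IsOpen (U i)) (hc : ∀ x, ∃ i, x ∈ U i) (h0 : ∀ i, x₀ ∈ U i)
    (hN : ∀ i (γ : Path x₀ x₀), (∀ s, γ s ∈ U i) → γ.Homotopic (Path.refl x₀))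
    (hJ : ∀ i j, ∀ x ∈ U i ∩ U j, JoinedIn (U i ∩ U j) x₀ x) (γ : Path x₀ x₀) :
    γ.Homotopic (Path.refl x₀) := by
  obtain ⟨t, ht0, hm, ⟨N, hN1⟩, hi⟩ := exists_monotone_Icc_subset_open_cover_unitInterval
    (c := fun i => γ ⁻¹' U i) (fun i => (hU i).preimage γ.continuous) (fun s _ => by
      obtain ⟨i, hi⟩ := hc (γ s)
      exact mem_iUnion.2 ⟨i, hi⟩)
  choose i hi using hi
  have hst : ∀ n, γ (t n) ∈ U (i n) := fun n => hi n ⟨le_rfl, hm n.le_succ⟩
  have hst' : ∀ n, γ (t (n + 1)) ∈ U (i n) := fun n => hi n ⟨hm n.le_succ, le_rfl⟩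
  have e0 : γ (t 0) = x₀ := by rw [ht0, γ.source]
  have key : ∀ n, ∀ c : Path x₀ (γ (t n)), (∀ s, c s ∈ U (i n)) →
      Path.Homotopic.Quotient.mk (((Path.refl x₀).cast rfl e0).trans (γ.subpath (t 0) (t n))) =
        Path.Homotopic.Quotient.mk c := by
    intro n
    induction n with
    | zero =>
      intro c hcc
      rw [Path.subpath_self, Path.Homotopic.Quotient.mk_trans, Path.Homotopic.Quotient.mk_refl]
      rw [show Path.Homotopic.Quotient.trans (Path.Homotopic.Quotient.mk ((Path.refl x₀).cast rfl e0))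
        (Path.Homotopic.Quotient.refl (γ (t 0))) = Path.Homotopic.Quotient.mk ((Path.refl x₀).cast rfl e0) by simp]
      refine eq_of_loops (hN (i 0)) _ _ (fun s => ?_) hcc
      exact h0 _
    | succ n ih =>
      intro c hcc
      obtain ⟨e, he⟩ := hJ (i n) (i (n + 1)) _ ⟨hst' n, hst (n + 1)⟩
      obtain ⟨c', hc'⟩ := hJ (i n) (i n) _ ⟨hst n, hst n⟩
      rw [eq_of_loops (hN (i (n + 1))) c e hcc fun s => (he s).2]
      have h1 := ih c' fun s => (hc' s).1
      have h2 : Path.Homotopic.Quotient.mk (γ.subpath (t 0) (t (n + 1))) =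
          Path.Homotopic.Quotient.trans (Path.Homotopic.Quotient.mk (γ.subpath (t 0) (t n)))
            (Path.Homotopic.Quotient.mk (γ.subpath (t n) (t (n + 1)))) := by
        rw [← Path.Homotopic.Quotient.mk_trans]
        exact Path.Homotopic.Quotient.eq.2 ⟨(Path.Homotopy.subpathTransSubpath γ (t 0) (t n) (t (n + 1))).symm⟩
      rw [Path.Homotopic.Quotient.mk_trans, h2]
      rw [Path.Homotopic.Quotient.mk_trans] at h1
      have h3 : Path.Homotopic.Quotient.trans (Path.Homotopic.Quotient.mk ((Path.refl x₀).cast rfl e0))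
          (Path.Homotopic.Quotient.trans (Path.Homotopic.Quotient.mk (γ.subpath (t 0) (t n)))
            (Path.Homotopic.Quotient.mk (γ.subpath (t n) (t (n + 1))))) =
          Path.Homotopic.Quotient.trans (Path.Homotopic.Quotient.trans (Path.Homotopic.Quotient.mk ((Path.refl x₀).cast rfl e0))
            (Path.Homotopic.Quotient.mk (γ.subpath (t 0) (t n)))) (Path.Homotopic.Quotient.mk (γ.subpath (t n) (t (n + 1)))) := by
        simp
      rw [h3, h1, ← Path.Homotopic.Quotient.mk_trans]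
      refine eq_of_loops (hN (i n)) _ _ (fun s => ?_) fun s => (he s).1
      have h4 : (c'.trans (γ.subpath (t n) (t (n + 1)))) s ∈
        range (c'.trans (γ.subpath (t n) (t (n + 1)))) := mem_range_self s
      rw [Path.trans_range] at h4
      rcases h4 with ⟨r, hr⟩ | hr
      · rw [← hr]; exact (hc' r).1
      · rw [Path.range_subpath_of_le _ _ _ (hm n.le_succ)] at hr
        obtain ⟨r, hr, hr'⟩ := hr
        rw [← hr']
        exact hi n hr
  have e1 : t N = 1 := hN1 N le_rfl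
  have e2 : γ (t N) = x₀ := by rw [e1, γ.target]
  have h5 := key N ((Path.refl x₀).cast rfl e2) fun s => h0 _
  clear key hst hst' hi hm hN1
  generalize t N = b at *
  generalize t 0 = a at *
  subst ht0 e1
  rw [Path.subpath_zero_one] at h5
  exact cast_aux _ _ γ h5

/-- **Simple connectivity from an open cover.** -/
theorem simplyConnected_of_cover (hU : ∀ i, IsOpen (U i)) (hc : ∀ x, ∃ i, x ∈ U i)
    (h0 : ∀ i, x₀ ∈ U i)
    (hN : ∀ i (γ : Path x₀ x₀), (∀ s, γ s ∈ U i) → γ.Homotopic (Path.refl x₀))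
    (hJ : ∀ i j, ∀ x ∈ U i ∩ U j, JoinedIn (U i ∩ U j) x₀ x) : SimplyConnectedSpace X := by
  rw [simply_connected_iff_loops_nullhomotopic]
  have hj : ∀ x, Joined x₀ x := fun x => by
    obtain ⟨i, hi⟩ := hc x
    exact (hJ i i x ⟨hi, hi⟩).joined
  refine ⟨⟨⟨x₀⟩, fun x y => (hj x).symm.trans (hj y)⟩, fun x γ => ?_⟩
  obtain ⟨c⟩ := hj x
  have h1 := loops_of_cover hU hc h0 hN hJ ((c.trans γ).trans c.symm)
  rw [← Path.Homotopic.Quotient.eq] at h1 ⊢
  have h2 : Path.Homotopic.Quotient.mk γ = Path.Homotopic.Quotient.trans (Path.Homotopic.Quotient.symm (Path.Homotopic.Quotient.mk c))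
      (Path.Homotopic.Quotient.trans (Path.Homotopic.Quotient.mk ((c.trans γ).trans c.symm)) (Path.Homotopic.Quotient.mk c)) := by
    simp
    grind
  rw [h2, h1]
  simp

/-- Loops in a simply connected subset are null-homotopic. -/
theorem loop_of_sc {U : Set X} [SimplyConnectedSpace U] {x₀ : X} (γ : Path x₀ x₀)
    (hγ : ∀ s, γ s ∈ U) : γ.Homotopic (Path.refl x₀) := by
  have hx : x₀ ∈ U := by
    have := hγ 0
    rwa [γ.source] at this
  let γ' : Path (⟨x₀, hx⟩ : U) ⟨x₀, hx⟩ :=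
    { toFun := fun s => ⟨γ s, hγ s⟩
      continuous_toFun := γ.continuous.subtype_mk _
      source' := Subtype.ext γ.source
      target' := Subtype.ext γ.target }
  obtain ⟨F⟩ := SimplyConnectedSpace.paths_homotopic γ' (Path.refl _)
  exact ⟨F.map ⟨Subtype.val, continuous_subtype_val⟩⟩

/-- A set with a contraction is simply connected. -/
theorem sc_of_contr {U : Set X} {c : X} (hc : c ∈ U) (H : ℝ × X → X)
    (hH : ContinuousOn H (Icc (0 : ℝ) 1 ×ˢ U)) (HU : ∀ s ∈ Icc (0 : ℝ) 1, ∀ x ∈ U, H (s, x) ∈ U)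
    (H0 : ∀ x ∈ U, H (0, x) = x) (H1 : ∀ x ∈ U, H (1, x) = c) : SimplyConnectedSpace U := by
  have : ContractibleSpace U := by
    rw [contractible_iff_id_nullhomotopic]
    refine ⟨⟨c, hc⟩, ⟨⟨⟨fun p => ⟨H (p.1, p.2), HU _ p.1.2 _ p.2.2⟩, ?_⟩, fun x => ?_,
      fun x => ?_⟩⟩⟩
    · exact (hH.comp_continuous (by fun_prop) fun p => ⟨p.1.2, p.2.2⟩).subtype_mk _
    · exact Subtype.ext (H0 _ x.2)
    · exact Subtype.ext (H1 _ x.2)
  infer_instance

/-- **Simple connectivity from an open cover by simply connected sets.** -/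
theorem simplyConnected_of_cover' {ι : Type*} {U : ι → Set X} {x₀ : X} (hU : ∀ i, IsOpen (U i))
    (hc : ∀ x, ∃ i, x ∈ U i) (h0 : ∀ i, x₀ ∈ U i) (hN : ∀ i, SimplyConnectedSpace (U i))
    (hJ : ∀ i j, ∀ x ∈ U i ∩ U j, JoinedIn (U i ∩ U j) x₀ x) : SimplyConnectedSpace X :=
  simplyConnected_of_cover hU hc h0 (fun i γ hγ => by
    have := hN i
    exact loop_of_sc γ hγ) hJ

end

end Vale.Agent.P216.H133C
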