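import Vale.Agent.P216.H133C.HP
import Vale.Agent.P216.H133C.SCov

/-!
# P216-C : quaternionic projective space is simply connected
-/

open Set Topology Quaternion

namespace Vale.Agent.P216.H133C

variable {N : ℕ}

/-- the open chart -/
def Uc (j : Fin N) : Set (HP N) := {P | 0 < dg P.1 j}

theorem isOpen_Uc (j : Fin N) : IsOpen (Uc j) :=
  isOpen_lt continuous_const ((continuous_dg j).comp continuous_subtype_val)

theorem exists_Uc (P : HP N) : ∃ j, P ∈ Uc j := by
  by_contra! h
  have h1 : ∑ i, dg P.1 i ≤ 0 := Finset.sum_nonpos fun i _ => not_lt.1 (h i)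
  rw [sum_dg P.2] at h1
  norm_num at h1

theorem dg_npr_pos {v : Fin N → Quaternion ℝ} {j : Fin N} (h : v j ≠ 0) : 0 < dg (npr v) j := by
  rw [dg_npr]
  have := ns_pos_of h
  have : 0 < ‖v j‖ := norm_pos_iff.2 h
  positivity

/-- the point of a nonzero vector -/
noncomputable def pv (v : Fin N → Quaternion ℝ) (j : Fin N) (h : v j ≠ 0) : HP N :=
  ⟨npr v, npr_mem (ns_pos_of h)⟩

/-- scaling of the coordinates other than `j` -/
noncomputable def sc (j : Fin N) (s : ℝ) (w : Fin N → Quaternion ℝ) : Fin N → Quaternion ℝ :=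
  fun i => if i = j then w i else (1 - s) • w i

theorem sc_self (j : Fin N) (s : ℝ) (w : Fin N → Quaternion ℝ) : sc j s w j = w j := if_pos rfl

theorem continuous_sc (j : Fin N) :
    Continuous fun p : ℝ × (Fin N → Quaternion ℝ) => sc j p.1 p.2 := by
  unfold sc
  refine continuous_pi fun i => ?_
  split_ifs
  · exact (continuous_apply i).comp continuous_snd
  · exact (continuous_const.sub continuous_fst).smul ((continuous_apply i).comp continuous_snd)

instance sc_Uc (j : Fin N) : SimplyConnectedSpace (Uc j) := by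
  classical
  have hs : ∀ s (P : HP N), P ∈ Uc j → sc j s (ch j P.1) j ≠ 0 := fun s P hP => by
    rw [sc_self, ch_self P.2 hP]
    exact one_ne_zero
  have h1 : (Pi.single j 1 : Fin N → Quaternion ℝ) j ≠ 0 := by
    rw [Pi.single_eq_same]; exact one_ne_zero
  refine sc_of_contr (c := pv (Pi.single j 1) j h1) (dg_npr_pos h1)
    (fun p => if h : p.2 ∈ Uc j then pv (sc j p.1 (ch j p.2.1)) j (hs p.1 p.2 h) else p.2) ?_ ?_ ?_ ?_
  · rw [continuousOn_iff_continuous_domRestrict]
    have e : ((Icc (0 : ℝ) 1 ×ˢ Uc j).domRestrict fun p : ℝ × HP N =>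
        if h : p.2 ∈ Uc j then pv (sc j p.1 (ch j p.2.1)) j (hs p.1 p.2 h) else p.2) =
        fun p => pv (sc j p.1.1 (ch j p.1.2.1)) j (hs p.1.1 p.1.2 p.2.2) := by
      funext p
      exact dif_pos p.2.2
    rw [e]
    refine Continuous.subtype_mk ?_ _
    refine continuousOn_npr.comp_continuous ?_ fun p => ns_pos_of (hs p.1.1 p.1.2 p.2.2)
    have h2 : Continuous fun p : ↥(Icc (0 : ℝ) 1 ×ˢ Uc j) => ch j p.1.2.1 :=
      (continuousOn_ch j).comp_continuous
        (continuous_subtype_val.comp (continuous_snd.comp continuous_subtype_val)) fun p => p.2.2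
    exact (continuous_sc j).comp ((continuous_fst.comp continuous_subtype_val).prodMk h2)
  · intro s _ P hP
    simp only [dif_pos hP]
    exact dg_npr_pos (hs s P hP)
  · intro P hP
    simp only [dif_pos hP]
    refine Subtype.ext ?_
    change npr (sc j 0 (ch j P.1)) = P.1
    have : sc j 0 (ch j P.1) = ch j P.1 := by
      funext i
      unfold sc
      split_ifs <;> simp
    rw [this, npr_ch P.2 hP]
  · intro P hP
    simp only [dif_pos hP]
    refine Subtype.ext ?_
    change npr (sc j 1 (ch j P.1)) = npr (Pi.single j 1)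
    congr 1
    funext i
    unfold sc
    split_ifs with h
    · subst h
      rw [ch_self P.2 hP, Pi.single_eq_same]
    · rw [Pi.single_eq_of_ne h]
      simp

theorem exists_pathH (q : Quaternion ℝ) :
    ∃ γ : Path (1 : Quaternion ℝ) q, q ≠ 0 → ∀ s, γ s ≠ 0 := by
  by_cases hq : q = 0
  · exact ⟨PathConnectedSpace.somePath _ _, fun h => (h hq).elim⟩
  · have h1 : 1 < Module.rank ℝ (Quaternion ℝ) := by
      rw [Quaternion.rank_eq_four]
      norm_num
    obtain ⟨γ, hγ⟩ := (isPathConnected_compl_singleton_of_one_lt_rank h1 0).joinedIn 1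
      one_ne_zero q hq
    exact ⟨γ, fun _ => hγ⟩

theorem joinedIn_Uc (i j : Fin N) (x₀ : HP N) (hx : x₀.1 = npr (fun _ => 1)) (P : HP N)
    (hP : P ∈ Uc i ∩ Uc j) : JoinedIn (Uc i ∩ Uc j) x₀ P := by
  choose γ hγ using fun l => exists_pathH (ch i P.1 l)
  have hi : ch i P.1 i ≠ 0 := by
    rw [ch_self P.2 hP.1]
    exact one_ne_zero
  have hj : ch i P.1 j ≠ 0 := by
    intro h
    have h1 := norm_ch P.2 hP.1 j
    rw [h, norm_zero] at h1
    have h2 : 0 < dg P.1 j / dg P.1 i := div_pos hP.2 hP.1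
    rw [← h1] at h2
    norm_num at h2
  refine ⟨⟨⟨fun s => pv (fun l => γ l s) i (hγ i hi s), ?_⟩, ?_, ?_⟩, fun s => ?_⟩
  · refine Continuous.subtype_mk ?_ _
    refine continuousOn_npr.comp_continuous ?_ fun s => ns_pos_of (hγ i hi s)
    exact continuous_pi fun l => (γ l).continuous
  · refine Subtype.ext ?_
    change npr (fun l => γ l 0) = x₀.1
    rw [hx]
    simp only [Path.source]
  · refine Subtype.ext ?_
    change npr (fun l => γ l 1) = P.1
    simp only [Path.target]
    exact npr_ch P.2 hP.1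
  · exact ⟨dg_npr_pos (hγ i hi s), dg_npr_pos (hγ j hj s)⟩

instance simplyConnected_HP (m : ℕ) : SimplyConnectedSpace (HP (m + 1)) := by
  have h1 : ∀ j : Fin (m + 1), (fun _ => 1 : Fin (m + 1) → Quaternion ℝ) j ≠ 0 := fun _ =>
    one_ne_zero
  let x₀ : HP (m + 1) := pv (fun _ => 1) 0 (h1 0)
  exact simplyConnected_of_cover' (U := Uc) (x₀ := x₀) isOpen_Uc exists_Uc
    (fun i => dg_npr_pos (h1 i)) (fun i => sc_Uc i) fun i j P hP => joinedIn_Uc i j x₀ rfl P hP

theorem simplyConnected_of_homeoHP {M : Type*} [TopologicalSpace M] {m : ℕ}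
    (e : M ≃ₜ HP (m + 1)) : SimplyConnectedSpace M :=
  e.toHomotopyEquiv.simplyConnectedSpace

end Vale.Agent.P216.H133C
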