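import Mathlib.Analysis.Quaternion

/-!
# Quaternionic projective space

`HPm m` = the quaternionic projective space `HP^m`, realised as the set of the rank one orthogonal
projections of `ℍ^(m+1)`: the matrices `v vᴴ`, `v` a unit vector, with the topology of the space of
matrices.
-/

open Quaternion

namespace Vale.Agent.P216.H133C

/-- The rank one orthogonal projections of `ℍ^(m+1)`: the matrices `v vᴴ` with `v` a unit
vector. -/
def HPmSet (m : ℕ) : Set (Fin (m + 1) → Fin (m + 1) → ℍ[ℝ]) :=
  {P | ∃ v : Fin (m + 1) → ℍ[ℝ], ∑ i, ‖v i‖ ^ 2 = 1 ∧ ∀ i j, P i j = v i * star (v j)}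

/-- Quaternionic projective space of quaternionic dimension `m`. -/
abbrev HPm (m : ℕ) : Type := ↥(HPmSet m)

end Vale.Agent.P216.H133C
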