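import Vale.Agent.P216.H133C.Def
import Vale.Agent.P216.H133C.SCHP

/-!
# The two forms of quaternionic projective space
-/

open Quaternion

namespace Vale.Agent.P216.H133C

theorem HPmSet_eq (m : ℕ) : HPmSet m = HP (m + 1) := by
  ext P
  constructor
  · rintro ⟨v, hv, h⟩
    exact ⟨v, hv, by funext i j; exact h i j⟩
  · rintro ⟨v, hv, rfl⟩
    exact ⟨v, hv, fun _ _ => rfl⟩

/-- The two forms of quaternionic projective space. -/
noncomputable def homeoHPm (m : ℕ) : HPm m ≃ₜ HP (m + 1) := Homeomorph.setCongr (HPmSet_eq m)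

instance (m : ℕ) : CompactSpace (HPm m) := (homeoHPm m).symm.compactSpace

instance (m : ℕ) : SimplyConnectedSpace (HPm m) := simplyConnected_of_homeoHP (homeoHPm m)

end Vale.Agent.P216.H133C
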