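import Mathlib

/-!
# P216-C : quaternionic projective space as a set of matrices

`HP N` is the set of the matrices `v vᴴ`, `v` a unit vector of `ℍ^N` (rank one projections);
quaternionic dimension `N - 1`.
-/

open Set Quaternion

namespace Vale.Agent.P216.H133C

/-- ambient space of matrices -/
abbrev Mt (N : ℕ) : Type := Fin N → Fin N → Quaternion ℝ

/-- squared norm -/
noncomputable def ns {N : ℕ} (v : Fin N → Quaternion ℝ) : ℝ := ∑ i, ‖v i‖ ^ 2

/-- the matrix `v vᴴ` -/
noncomputable def prj {N : ℕ} (v : Fin N → Quaternion ℝ) : Mt N := fun i j => v i * star (v j)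

/-- quaternionic projective space of quaternionic dimension `N - 1`: rank one projections -/
def HP (N : ℕ) : Set (Mt N) := {P | ∃ v : Fin N → Quaternion ℝ, ns v = 1 ∧ P = prj v}

/-- the projection on the line spanned by `v` -/
noncomputable def npr {N : ℕ} (v : Fin N → Quaternion ℝ) : Mt N := (ns v)⁻¹ • prj v

/-- diagonal entries -/
def dg {N : ℕ} (P : Mt N) (i : Fin N) : ℝ := (P i i).re

variable {N : ℕ}

theorem mul_star_self' (q : Quaternion ℝ) : q * star q = ((‖q‖ ^ 2 : ℝ) : Quaternion ℝ) := by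
  rw [Quaternion.self_mul_star, Quaternion.normSq_eq_norm_mul_self, sq]

theorem star_mul_self' (q : Quaternion ℝ) : star q * q = ((‖q‖ ^ 2 : ℝ) : Quaternion ℝ) := by
  rw [Quaternion.star_mul_self, Quaternion.normSq_eq_norm_mul_self, sq]

theorem ns_nonneg (v : Fin N → Quaternion ℝ) : 0 ≤ ns v :=
  Finset.sum_nonneg fun _ _ => by positivity

theorem ns_smul (c : ℝ) (v : Fin N → Quaternion ℝ) : ns (c • v) = c ^ 2 * ns v := by
  simp only [ns, Pi.smul_apply, norm_smul, mul_pow, Finset.mul_sum, Real.norm_eq_abs, sq_abs]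

theorem ns_mulr (q : Quaternion ℝ) (v : Fin N → Quaternion ℝ) :
    ns (fun i => v i * q) = ‖q‖ ^ 2 * ns v := by
  simp only [ns, norm_mul, mul_pow, Finset.mul_sum]
  exact Finset.sum_congr rfl fun i _ => mul_comm _ _

theorem prj_smul (c : ℝ) (v : Fin N → Quaternion ℝ) : prj (c • v) = c ^ 2 • prj v := by
  funext i j
  simp only [prj, Pi.smul_apply, Quaternion.star_smul, smul_mul_assoc, mul_smul_comm, smul_smul]
  rw [sq]

theorem prj_mulr (q : Quaternion ℝ) (v : Fin N → Quaternion ℝ) :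
    prj (fun i => v i * q) = ‖q‖ ^ 2 • prj v := by
  funext i j
  simp only [prj, Pi.smul_apply, star_mul]
  rw [mul_assoc, ← mul_assoc q, mul_star_self', Quaternion.coe_mul_eq_smul, mul_smul_comm]

theorem npr_mulr {q : Quaternion ℝ} (hq : q ≠ 0) (v : Fin N → Quaternion ℝ) :
    npr (fun i => v i * q) = npr v := by
  have h : ‖q‖ ^ 2 ≠ 0 := by simpa using hq
  rw [npr, ns_mulr, prj_mulr, smul_smul, mul_inv, mul_comm (‖q‖ ^ 2)⁻¹, mul_assoc,
    inv_mul_cancel₀ h, mul_one]
  rfl

theorem npr_smul {c : ℝ} (hc : c ≠ 0) (v : Fin N → Quaternion ℝ) : npr (c • v) = npr v := by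
  have h : c ^ 2 ≠ 0 := pow_ne_zero 2 hc
  rw [npr, ns_smul, prj_smul, smul_smul, mul_inv, mul_comm (c ^ 2)⁻¹, mul_assoc,
    inv_mul_cancel₀ h, mul_one]
  rfl

theorem npr_of_ns {v : Fin N → Quaternion ℝ} (hv : ns v = 1) : npr v = prj v := by
  rw [npr, hv, inv_one, one_smul]

theorem npr_mem {v : Fin N → Quaternion ℝ} (hv : 0 < ns v) : npr v ∈ HP N := by
  have hs : (0 : ℝ) < √(ns v) := Real.sqrt_pos.2 hv
  have h2 : √(ns v) ^ 2 = ns v := Real.sq_sqrt hv.le
  refine ⟨(√(ns v))⁻¹ • v, ?_, ?_⟩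
  · rw [ns_smul, inv_pow, h2, inv_mul_cancel₀ hv.ne']
  · rw [prj_smul, inv_pow, h2]
    rfl

theorem dg_prj (v : Fin N → Quaternion ℝ) (i : Fin N) : dg (prj v) i = ‖v i‖ ^ 2 := by
  rw [dg, prj, mul_star_self', Quaternion.re_coe]

theorem dg_smul (c : ℝ) (P : Mt N) (i : Fin N) : dg (c • P) i = c * dg P i := rfl

theorem dg_npr (v : Fin N → Quaternion ℝ) (i : Fin N) : dg (npr v) i = ‖v i‖ ^ 2 / ns v := by
  rw [npr, dg_smul, dg_prj, div_eq_inv_mul]

theorem continuous_dg (i : Fin N) : Continuous fun P : Mt N => dg P i :=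
  Quaternion.continuous_re.comp ((continuous_apply i).comp (continuous_apply i))

theorem norm_prj (v : Fin N → Quaternion ℝ) (i j : Fin N) : ‖prj v i j‖ = ‖v i‖ * ‖v j‖ := by
  rw [prj, norm_mul, Quaternion.norm_star]

theorem continuous_ns : Continuous (ns : (Fin N → Quaternion ℝ) → ℝ) := by
  unfold ns; fun_prop

theorem continuous_star' : Continuous (star : Quaternion ℝ → Quaternion ℝ) := by
  have : (star : Quaternion ℝ → Quaternion ℝ) = fun q => (2 * q.re : ℝ) • (1 : Quaternion ℝ) - q := by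
    funext q
    ext
    · simp; ring
    all_goals simp
  rw [this]
  exact ((continuous_const.mul Quaternion.continuous_re).smul continuous_const).sub continuous_id

theorem continuous_prj : Continuous (prj : (Fin N → Quaternion ℝ) → Mt N) := by
  unfold prj
  refine continuous_pi fun i => continuous_pi fun j => ?_
  exact (continuous_apply i).mul (continuous_star'.comp (continuous_apply j))

theorem continuousOn_npr : ContinuousOn (npr : (Fin N → Quaternion ℝ) → Mt N) {v | 0 < ns v} := by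
  unfold npr
  exact (continuous_ns.continuousOn.inv₀ fun v hv => ne_of_gt hv).smul continuous_prj.continuousOn

theorem isCompact_HP (N : ℕ) : IsCompact (HP N) := by
  have h1 : IsCompact {v : Fin N → Quaternion ℝ | ns v = 1} := by
    have hK : IsCompact (Metric.closedBall (0 : EuclideanSpace ℝ (Fin 4)) 1) :=
      isCompact_closedBall 0 1
    have hB : IsCompact (Metric.closedBall (0 : Quaternion ℝ) 1) := by
      have := hK.image Quaternion.linearIsometryEquivTuple.symm.continuous
      refine this.of_isClosed_subset Metric.isClosed_closedBall fun q hq => ?_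
      refine ⟨Quaternion.linearIsometryEquivTuple q, ?_,
        Quaternion.linearIsometryEquivTuple.symm_apply_apply q⟩
      rw [mem_closedBall_zero_iff] at hq ⊢
      rw [LinearIsometryEquiv.norm_map]
      exact hq
    have hP : IsCompact (Set.pi univ fun _ : Fin N => Metric.closedBall (0 : Quaternion ℝ) 1) :=
      isCompact_univ_pi fun _ => hB
    refine hP.of_isClosed_subset (isClosed_eq continuous_ns continuous_const) fun v hv i _ => ?_
    rw [mem_closedBall_zero_iff]
    have h2 : ‖v i‖ ^ 2 ≤ ns v :=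
      Finset.single_le_sum (f := fun i => ‖v i‖ ^ 2) (fun _ _ => by positivity) (Finset.mem_univ i)
    rw [show ns v = 1 from hv] at h2
    nlinarith [norm_nonneg (v i)]
  have h2 : HP N = prj '' {v : Fin N → Quaternion ℝ | ns v = 1} := by
    ext P
    constructor
    · rintro ⟨v, hv, rfl⟩
      exact ⟨v, hv, rfl⟩
    · rintro ⟨v, hv, rfl⟩
      exact ⟨v, hv, rfl⟩
  rw [h2]
  exact h1.image continuous_prj

instance (N : ℕ) : CompactSpace (HP N) := isCompact_iff_compactSpace.1 (isCompact_HP N)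

theorem dg_nonneg {P : Mt N} (hP : P ∈ HP N) (i : Fin N) : 0 ≤ dg P i := by
  obtain ⟨v, -, rfl⟩ := hP
  rw [dg_prj]
  positivity

theorem sum_dg {P : Mt N} (hP : P ∈ HP N) : ∑ i, dg P i = 1 := by
  obtain ⟨v, hv, rfl⟩ := hP
  simp only [dg_prj]
  exact hv

theorem dg_le_one {P : Mt N} (hP : P ∈ HP N) (i : Fin N) : dg P i ≤ 1 := by
  rw [← sum_dg hP]
  exact Finset.single_le_sum (f := fun i => dg P i) (fun i _ => dg_nonneg hP i) (Finset.mem_univ i)

/-! ### Affine charts -/

/-- the chart: the vector `v` with `v j = 1` -/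
noncomputable def ch (j : Fin N) (P : Mt N) : Fin N → Quaternion ℝ := fun i => (dg P j)⁻¹ • P i j

theorem ch_self {j : Fin N} {P : Mt N} (hP : P ∈ HP N) (h : 0 < dg P j) : ch j P j = 1 := by
  obtain ⟨v, -, rfl⟩ := hP
  have h' := dg_prj v j
  rw [ch, h', prj, mul_star_self']
  rw [h'] at h
  rw [Quaternion.smul_coe, inv_mul_cancel₀ h.ne', Quaternion.coe_one]

theorem ch_prj {j : Fin N} {v : Fin N → Quaternion ℝ} (h : v j ≠ 0) :
    ch j (prj v) = fun i => v i * (v j)⁻¹ := by
  funext i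
  rw [ch, dg_prj, prj, ← mul_smul_comm, Quaternion.inv_def, Quaternion.normSq_eq_norm_mul_self,
    ← sq]

theorem ns_pos_of {v : Fin N → Quaternion ℝ} {j : Fin N} (h : v j ≠ 0) : 0 < ns v := by
  have h2 : ‖v j‖ ^ 2 ≤ ns v :=
    Finset.single_le_sum (f := fun i => ‖v i‖ ^ 2) (fun _ _ => by positivity) (Finset.mem_univ j)
  have : 0 < ‖v j‖ := norm_pos_iff.2 h
  nlinarith

theorem one_le_ns {v : Fin N → Quaternion ℝ} {j : Fin N} (h : v j = 1) : 1 ≤ ns v := by
  have h2 : ‖v j‖ ^ 2 ≤ ns v :=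
    Finset.single_le_sum (f := fun i => ‖v i‖ ^ 2) (fun _ _ => by positivity) (Finset.mem_univ j)
  rw [h, norm_one, one_pow] at h2
  exact h2

theorem npr_ch {j : Fin N} {P : Mt N} (hP : P ∈ HP N) (h : 0 < dg P j) : npr (ch j P) = P := by
  obtain ⟨v, hv, rfl⟩ := hP
  rw [dg_prj] at h
  have h0 : v j ≠ 0 := by
    intro h'
    rw [h', norm_zero] at h
    norm_num at h
  rw [ch_prj h0, npr_mulr (inv_ne_zero h0), npr_of_ns hv]

theorem ch_smul {j : Fin N} {c : ℝ} (hc : c ≠ 0) (P : Mt N) : ch j (c • P) = ch j P := by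
  funext i
  rw [ch, dg_smul, ch, mul_inv, Pi.smul_apply, Pi.smul_apply, smul_smul]
  congr 1
  field_simp

theorem ch_npr {j : Fin N} {w : Fin N → Quaternion ℝ} (h : w j = 1) : ch j (npr w) = w := by
  rw [npr, ch_smul (inv_ne_zero (ns_pos_of (j := j) (by rw [h]; exact one_ne_zero)).ne'),
    ch_prj (by rw [h]; exact one_ne_zero)]
  funext i
  rw [h, inv_one, mul_one]

theorem norm_ch {j : Fin N} {P : Mt N} (hP : P ∈ HP N) (h : 0 < dg P j) (i : Fin N) :
    ‖ch j P i‖ ^ 2 = dg P i / dg P j := by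
  have h1 := dg_npr (ch j P) i
  have h2 := dg_npr (ch j P) j
  rw [npr_ch hP h] at h1 h2
  rw [ch_self hP h, norm_one, one_pow] at h2
  have h3 : ns (ch j P) ≠ 0 := by
    intro h0
    rw [h0, div_zero] at h2
    exact h.ne' h2
  rw [h1, h2]
  field_simp

theorem continuousOn_ch (j : Fin N) : ContinuousOn (ch j : Mt N → _) {P | 0 < dg P j} := by
  unfold ch
  refine continuousOn_pi.2 fun i => ?_
  refine ((continuous_dg j).continuousOn.inv₀ fun P hP => ne_of_gt hP).smul ?_
  exact ((continuous_apply j).comp (continuous_apply i)).continuousOn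

end Vale.Agent.P216.H133C
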