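import Mathlib

/-!
# P216-C : the radial homeomorphism between the round ball and the cube
-/

open Set

namespace Vale.Agent.P216.H133C

variable {n : ℕ}

/-- the Euclidean norm -/
noncomputable def en (x : Fin n → ℝ) : ℝ := √(∑ i, x i ^ 2)

theorem en_nonneg (x : Fin n → ℝ) : 0 ≤ en x := Real.sqrt_nonneg _

theorem en_sq (x : Fin n → ℝ) : en x ^ 2 = ∑ i, x i ^ 2 :=
  Real.sq_sqrt (Finset.sum_nonneg fun _ _ => sq_nonneg _)

theorem continuous_en : Continuous (en (n := n)) := by
  unfold en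
  fun_prop

theorem en_smul (c : ℝ) (x : Fin n → ℝ) : en (c • x) = |c| * en x := by
  rw [en, en, ← Real.sqrt_sq_eq_abs, ← Real.sqrt_mul (sq_nonneg c)]
  congr 1
  rw [Finset.mul_sum]
  exact Finset.sum_congr rfl fun i _ => by rw [Pi.smul_apply, smul_eq_mul, mul_pow]

theorem en_zero : en (0 : Fin n → ℝ) = 0 := by
  simp [en]

theorem abs_le_en (x : Fin n → ℝ) (i : Fin n) : |x i| ≤ en x := by
  rw [← Real.sqrt_sq_eq_abs]
  exact Real.sqrt_le_sqrt (Finset.single_le_sum (f := fun i => x i ^ 2)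
    (fun _ _ => sq_nonneg _) (Finset.mem_univ i))

theorem norm_le_en (x : Fin n → ℝ) : ‖x‖ ≤ en x :=
  (pi_norm_le_iff_of_nonneg (en_nonneg x)).2 fun i => abs_le_en x i

theorem en_ne {x : Fin n → ℝ} (hx : x ≠ 0) : en x ≠ 0 := by
  intro h
  apply hx
  rw [← norm_eq_zero]
  exact le_antisymm (h ▸ norm_le_en x) (norm_nonneg x)

/-- ball to cube -/
noncomputable def rad (x : Fin n → ℝ) : Fin n → ℝ := (en x / ‖x‖) • x

/-- cube to ball -/
noncomputable def radI (x : Fin n → ℝ) : Fin n → ℝ := (‖x‖ / en x) • x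

theorem rad_zero : rad (0 : Fin n → ℝ) = 0 := smul_zero _

theorem radI_zero : radI (0 : Fin n → ℝ) = 0 := smul_zero _

theorem norm_rad (x : Fin n → ℝ) : ‖rad x‖ = en x := by
  rcases eq_or_ne x 0 with rfl | hx
  · rw [rad_zero, norm_zero, en_zero]
  · have h : ‖x‖ ≠ 0 := norm_ne_zero_iff.2 hx
    rw [rad, norm_smul, Real.norm_of_nonneg (div_nonneg (en_nonneg x) (norm_nonneg x)),
      div_mul_cancel₀ _ h]

theorem en_radI (x : Fin n → ℝ) : en (radI x) = ‖x‖ := by
  rcases eq_or_ne x 0 with rfl | hx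
  · rw [radI_zero, norm_zero, en_zero]
  · rw [radI, en_smul, abs_of_nonneg (div_nonneg (norm_nonneg x) (en_nonneg x)),
      div_mul_cancel₀ _ (en_ne hx)]

theorem rad_radI (x : Fin n → ℝ) : rad (radI x) = x := by
  rcases eq_or_ne x 0 with rfl | hx
  · rw [radI_zero, rad_zero]
  · have h : ‖x‖ ≠ 0 := norm_ne_zero_iff.2 hx
    have h' := en_ne hx
    have e1 : ‖radI x‖ = ‖x‖ / en x * ‖x‖ := by
      rw [radI, norm_smul, Real.norm_of_nonneg (div_nonneg (norm_nonneg x) (en_nonneg x))]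
    rw [rad, en_radI, e1, radI, smul_smul]
    have : ‖x‖ / (‖x‖ / en x * ‖x‖) * (‖x‖ / en x) = 1 := by field_simp
    rw [this, one_smul]

theorem radI_rad (x : Fin n → ℝ) : radI (rad x) = x := by
  rcases eq_or_ne x 0 with rfl | hx
  · rw [rad_zero, radI_zero]
  · have h : ‖x‖ ≠ 0 := norm_ne_zero_iff.2 hx
    have h' := en_ne hx
    have e1 : en (rad x) = en x / ‖x‖ * en x := by
      rw [rad, en_smul, abs_of_nonneg (div_nonneg (en_nonneg x) (norm_nonneg x))]
    rw [radI, norm_rad, e1, rad, smul_smul]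
    have : en x / (en x / ‖x‖ * en x) * (en x / ‖x‖) = 1 := by field_simp
    rw [this, one_smul]

theorem continuous_rad : Continuous (rad (n := n)) := by
  rw [continuous_iff_continuousAt]
  intro x
  rcases eq_or_ne x 0 with rfl | hx
  · rw [ContinuousAt, rad_zero, tendsto_zero_iff_norm_tendsto_zero]
    simp only [norm_rad]
    have := continuous_en (n := n).tendsto 0
    rwa [en_zero] at this
  · have h : ‖x‖ ≠ 0 := norm_ne_zero_iff.2 hx
    exact (continuous_en.continuousAt.div continuous_norm.continuousAt h).smul continuousAt_id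

theorem continuous_radI : Continuous (radI (n := n)) := by
  rw [continuous_iff_continuousAt]
  intro x
  rcases eq_or_ne x 0 with rfl | hx
  · rw [ContinuousAt, radI_zero, tendsto_zero_iff_norm_tendsto_zero]
    have h1 : Filter.Tendsto (fun x : Fin n → ℝ => ‖x‖) (nhds 0) (nhds 0) := by
      have := (continuous_norm (E := Fin n → ℝ)).tendsto 0
      rwa [norm_zero] at this
    refine squeeze_zero (fun _ => norm_nonneg _) (fun y => ?_) h1
    exact (norm_le_en _).trans (en_radI y).le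
  · exact (continuous_norm.continuousAt.div continuous_en.continuousAt (en_ne hx)).smul
      continuousAt_id

/-! ### The standard cube -/

/-- round unit ball → `[0,1]^n` -/
noncomputable def toCb (x : Fin n → ℝ) : Fin n → ℝ := fun i => (rad x i + 1) / 2

/-- `[0,1]^n` → round unit ball -/
noncomputable def ofCb (y : Fin n → ℝ) : Fin n → ℝ := radI fun i => 2 * y i - 1

theorem continuous_toCb : Continuous (toCb (n := n)) := by
  have := continuous_rad (n := n)
  unfold toCb
  refine continuous_pi fun i => ?_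
  exact (((continuous_apply i).comp this).add continuous_const).div_const 2

theorem continuous_ofCb : Continuous (ofCb (n := n)) :=
  continuous_radI.comp (by fun_prop)

theorem toCb_ofCb (y : Fin n → ℝ) : toCb (ofCb y) = y := by
  funext i
  rw [toCb, ofCb, rad_radI]
  ring

theorem ofCb_toCb (x : Fin n → ℝ) : ofCb (toCb x) = x := by
  have : (fun i => 2 * toCb x i - 1) = rad x := by
    funext i
    rw [toCb]
    ring
  rw [ofCb, this, radI_rad]

theorem toCb_mem {x : Fin n → ℝ} (hx : en x ≤ 1) (i : Fin n) : toCb x i ∈ Icc (0 : ℝ) 1 := by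
  have h1 : |rad x i| ≤ 1 := (norm_le_pi_norm (rad x) i).trans ((norm_rad x).le.trans hx)
  rw [abs_le] at h1
  constructor
  · rw [toCb]; linarith
  · rw [toCb]; linarith

theorem toCb_bd (hn : 0 < n) {x : Fin n → ℝ} (hx : en x = 1) : ∃ i, toCb x i = 0 ∨ toCb x i = 1 := by
  have : Nonempty (Fin n) := ⟨⟨0, hn⟩⟩
  have h1 : ‖rad x‖ = 1 := by rw [norm_rad, hx]
  obtain ⟨i, hi⟩ := Finite.exists_max fun i => ‖rad x i‖
  have h2 : ‖rad x i‖ = 1 := by
    refine le_antisymm ((norm_le_pi_norm (rad x) i).trans h1.le) ?_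
    rw [← h1]
    exact (pi_norm_le_iff_of_nonneg (norm_nonneg _)).2 hi
  refine ⟨i, ?_⟩
  rw [Real.norm_eq_abs] at h2
  rcases (abs_eq zero_le_one).1 h2 with h | h
  · right; rw [toCb, h]; norm_num
  · left; rw [toCb, h]; norm_num

theorem en_ofCb_le {y : Fin n → ℝ} (hy : ∀ i, y i ∈ Icc (0 : ℝ) 1) : en (ofCb y) ≤ 1 := by
  rw [ofCb, en_radI, pi_norm_le_iff_of_nonneg zero_le_one]
  intro i
  have := hy i
  rw [Real.norm_eq_abs, abs_le]
  constructor <;> linarith [this.1, this.2]

theorem en_ofCb_bd {y : Fin n → ℝ} (hy : ∀ i, y i ∈ Icc (0 : ℝ) 1) (hb : ∃ i, y i = 0 ∨ y i = 1) :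
    en (ofCb y) = 1 := by
  refine le_antisymm (en_ofCb_le hy) ?_
  obtain ⟨i, hi⟩ := hb
  rw [ofCb, en_radI]
  refine le_trans ?_ (norm_le_pi_norm _ i)
  rw [Real.norm_eq_abs]
  rcases hi with hi | hi
  · rw [hi]; norm_num
  · rw [hi]; norm_num

/-! ### Quaternions -/

/-- coordinates of a quaternion -/
def tup (q : Quaternion ℝ) : Fin 4 → ℝ := ![q.re, q.imI, q.imJ, q.imK]

/-- quaternion of given coordinates -/
def ofTup (x : Fin 4 → ℝ) : Quaternion ℝ := ⟨x 0, x 1, x 2, x 3⟩

theorem tup_ofTup (x : Fin 4 → ℝ) : tup (ofTup x) = x := by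
  funext i
  fin_cases i <;> rfl

theorem ofTup_tup (q : Quaternion ℝ) : ofTup (tup q) = q := rfl

theorem continuous_tup : Continuous tup := by
  refine continuous_pi fun i => ?_
  fin_cases i
  · exact Quaternion.continuous_re
  · exact Quaternion.continuous_imI
  · exact Quaternion.continuous_imJ
  · exact Quaternion.continuous_imK

theorem continuous_ofTup : Continuous ofTup := by
  have : ofTup = fun x => Quaternion.linearIsometryEquivTuple.symm (WithLp.toLp 2 x) := by
    funext x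
    rfl
  rw [this]
  exact Quaternion.linearIsometryEquivTuple.symm.continuous.comp (PiLp.continuous_toLp 2 _)

theorem en_tup (q : Quaternion ℝ) : en (tup q) = ‖q‖ := by
  rw [en, ← Real.sqrt_sq (norm_nonneg q)]
  congr 1
  rw [sq, ← Quaternion.normSq_eq_norm_mul_self, Quaternion.normSq_def', Fin.sum_univ_four]
  rfl

theorem norm_ofTup (x : Fin 4 → ℝ) : ‖ofTup x‖ = en x := by
  rw [← en_tup, tup_ofTup]

/-- round unit ball of `ℍ` → `[0,1]^4` -/
noncomputable def be (q : Quaternion ℝ) : Fin 4 → ℝ := toCb (tup q)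

/-- `[0,1]^4` → round unit ball of `ℍ` -/
noncomputable def beI (y : Fin 4 → ℝ) : Quaternion ℝ := ofTup (ofCb y)

theorem continuous_be : Continuous be := continuous_toCb.comp continuous_tup

theorem continuous_beI : Continuous beI := continuous_ofTup.comp continuous_ofCb

theorem be_beI (y : Fin 4 → ℝ) : be (beI y) = y := by
  rw [be, beI, tup_ofTup, toCb_ofCb]

theorem beI_be (q : Quaternion ℝ) : beI (be q) = q := by
  rw [be, beI, ofCb_toCb, ofTup_tup]

theorem be_mem {q : Quaternion ℝ} (h : ‖q‖ ≤ 1) (i : Fin 4) : be q i ∈ Icc (0 : ℝ) 1 :=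
  toCb_mem (by rwa [en_tup]) i

theorem be_bd {q : Quaternion ℝ} (h : ‖q‖ = 1) : ∃ i, be q i = 0 ∨ be q i = 1 :=
  toCb_bd (by norm_num) (by rwa [en_tup])

theorem norm_beI_le {y : Fin 4 → ℝ} (hy : ∀ i, y i ∈ Icc (0 : ℝ) 1) : ‖beI y‖ ≤ 1 := by
  rw [beI, norm_ofTup]
  exact en_ofCb_le hy

theorem norm_beI_bd {y : Fin 4 → ℝ} (hy : ∀ i, y i ∈ Icc (0 : ℝ) 1)
    (hb : ∃ i, y i = 0 ∨ y i = 1) : ‖beI y‖ = 1 := by
  rw [beI, norm_ofTup]
  exact en_ofCb_bd hy hb

end Vale.Agent.P216.H133C
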