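import Vale.Agent.P216.H133C.Cell
import Vale.Agent.P216.H133C.HP
import Vale.Agent.P216.H133C.Rad

/-!
# P216-C : the handle decomposition of quaternionic projective space by polydiscs

`D j = {P | P i i ≤ P j j for all i}`.
-/

open Set Quaternion

namespace Vale.Agent.P216.H133C

variable {m : ℕ}

/-- diagonal entry of index `j`, `-1` if `j` is too large -/
noncomputable def dgN (P : Mt (m + 1)) (j : ℕ) : ℝ := if h : j < m + 1 then dg P ⟨j, h⟩ else -1

theorem dgN_of_lt {P : Mt (m + 1)} {j : ℕ} (h : j < m + 1) : dgN P j = dg P ⟨j, h⟩ := dif_pos h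

theorem continuous_dgN (j : ℕ) : Continuous fun P : Mt (m + 1) => dgN P j := by
  unfold dgN
  split_ifs with h
  · exact continuous_dg _
  · exact continuous_const

/-- the polydisc -/
def Dj (m j : ℕ) : Set (HP (m + 1)) := {P | ∀ i : ℕ, i ≤ m → dgN P.1 i ≤ dgN P.1 j}

theorem isClosed_Dj (j : ℕ) : IsClosed (Dj m j) := by
  have : Dj m j = ⋂ (i : ℕ) (_ : i ≤ m), {P : HP (m + 1) | dgN P.1 i ≤ dgN P.1 j} := by
    ext P
    simp [Dj]
  rw [this]
  exact isClosed_iInter fun i => isClosed_iInter fun _ =>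
    isClosed_le ((continuous_dgN i).comp continuous_subtype_val)
      ((continuous_dgN j).comp continuous_subtype_val)

theorem cov_Dj (P : HP (m + 1)) : ∃ j ≤ m, P ∈ Dj m j := by
  obtain ⟨j, hj⟩ := Finite.exists_max fun i => dg P.1 i
  refine ⟨j.1, Nat.lt_succ_iff.1 j.2, fun i hi => ?_⟩
  rw [dgN_of_lt (Nat.lt_succ_of_le hi), dgN_of_lt j.2]
  exact hj _

section

variable {j : ℕ} (hj : j ≤ m)

/-- the index `j` -/
abbrev ix (hj : j ≤ m) : Fin (m + 1) := ⟨j, Nat.lt_succ_of_le hj⟩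

include hj in
theorem dg_le_of_mem {P : HP (m + 1)} (hP : P ∈ Dj m j) (i : Fin (m + 1)) :
    dg P.1 i ≤ dg P.1 (ix hj) := by
  have h := hP i.1 (Nat.lt_succ_iff.1 i.2)
  rwa [dgN_of_lt i.2, dgN_of_lt (Nat.lt_succ_of_le hj)] at h

include hj in
theorem dg_pos {P : HP (m + 1)} (hP : P ∈ Dj m j) : 0 < dg P.1 (ix hj) := by
  by_contra h
  have h0 : ∀ i, dg P.1 i = 0 := fun i =>
    le_antisymm ((dg_le_of_mem hj hP i).trans (not_lt.1 h)) (dg_nonneg P.2 i)
  have := sum_dg P.2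
  simp [h0] at this

include hj in
theorem norm_ch_le {P : HP (m + 1)} (hP : P ∈ Dj m j) (i : Fin (m + 1)) :
    ‖ch (ix hj) P.1 i‖ ≤ 1 := by
  have h := dg_pos hj hP
  have h1 : ‖ch (ix hj) P.1 i‖ ^ 2 ≤ 1 := by
    rw [norm_ch P.2 h, div_le_one h]
    exact dg_le_of_mem hj hP i
  nlinarith [norm_nonneg (ch (ix hj) P.1 i)]

/-- the homogeneous vector with coordinates `w i` (`i < j`), `1`, and `c • w i` (`i > j`) -/
noncomputable def wv (c : ℝ) (j : Fin (m + 1)) (w : Fin (m + 1) → Quaternion ℝ) :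
    Fin (m + 1) → Quaternion ℝ :=
  fun i => if i < j then w i else if i = j then 1 else c • w i

theorem wv_lt {c : ℝ} {j i : Fin (m + 1)} (h : i < j) (w : Fin (m + 1) → Quaternion ℝ) :
    wv c j w i = w i := if_pos h

theorem wv_self {c : ℝ} (j : Fin (m + 1)) (w : Fin (m + 1) → Quaternion ℝ) : wv c j w j = 1 := by
  rw [wv, if_neg (lt_irrefl _), if_pos rfl]

theorem wv_gt {c : ℝ} {j i : Fin (m + 1)} (h : j < i) (w : Fin (m + 1) → Quaternion ℝ) :
    wv c j w i = c • w i := by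
  rw [wv, if_neg (not_lt.2 h.le), if_neg h.ne']

theorem continuous_wv (j : Fin (m + 1)) :
    Continuous fun p : ℝ × (Fin (m + 1) → Quaternion ℝ) => wv p.1 j p.2 := by
  refine continuous_pi fun i => ?_
  rcases lt_trichotomy i j with h | h | h
  · have : (fun p : ℝ × (Fin (m + 1) → Quaternion ℝ) => wv p.1 j p.2 i) = fun p => p.2 i := by
      funext p
      exact wv_lt h _
    rw [this]
    fun_prop
  · have : (fun p : ℝ × (Fin (m + 1) → Quaternion ℝ) => wv p.1 j p.2 i) = fun _ => 1 := by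
      funext p
      rw [h]
      exact wv_self _ _
    rw [this]
    exact continuous_const
  · have : (fun p : ℝ × (Fin (m + 1) → Quaternion ℝ) => wv p.1 j p.2 i) =
        fun p => p.1 • p.2 i := by
      funext p
      exact wv_gt h _
    rw [this]
    exact continuous_fst.smul ((continuous_apply i).comp continuous_snd)

/-- the point of the polydisc -/
noncomputable def pt (w : Fin (m + 1) → Quaternion ℝ) (j : Fin (m + 1)) (h : w j = 1) :
    HP (m + 1) := ⟨npr w, npr_mem ((zero_lt_one).trans_le (one_le_ns h))⟩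

theorem pt_mem {w : Fin (m + 1) → Quaternion ℝ} (h : w (ix hj) = 1) (hw : ∀ i, ‖w i‖ ≤ 1) :
    pt w (ix hj) h ∈ Dj m j := by
  intro i hi
  have hn : 0 < ns w := (zero_lt_one).trans_le (one_le_ns h)
  rw [dgN_of_lt (Nat.lt_succ_of_le hi), dgN_of_lt (Nat.lt_succ_of_le hj)]
  change dg (npr w) _ ≤ dg (npr w) _
  rw [dg_npr, dg_npr]
  refine div_le_div_of_nonneg_right ?_ hn.le
  rw [show w ⟨j, Nat.lt_succ_of_le hj⟩ = 1 from h, norm_one]
  exact pow_le_pow_left₀ (norm_nonneg _) (hw _) 2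

theorem pt_bd {w : Fin (m + 1) → Quaternion ℝ} (h : w (ix hj) = 1) (hw : ∀ i, ‖w i‖ ≤ 1)
    {i : ℕ} (hi : i < j) (h1 : ‖w ⟨i, hi.trans (Nat.lt_succ_of_le hj)⟩‖ = 1) :
    pt w (ix hj) h ∈ Dj m i := by
  intro l hl
  have hn : 0 < ns w := (zero_lt_one).trans_le (one_le_ns h)
  rw [dgN_of_lt (Nat.lt_succ_of_le hl), dgN_of_lt (hi.trans (Nat.lt_succ_of_le hj))]
  change dg (npr w) _ ≤ dg (npr w) _
  rw [dg_npr, dg_npr]
  refine div_le_div_of_nonneg_right ?_ hn.le
  rw [h1]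
  exact pow_le_pow_left₀ (norm_nonneg _) (hw _) 2

/-- the index `i < j` -/
abbrev iy (hj : j ≤ m) (i : Fin j) : Fin (m + 1) := ⟨i.1, i.2.trans (Nat.lt_succ_of_le hj)⟩

/-- coordinates on the cell -/
noncomputable def phj (hj : j ≤ m) (P : HP (m + 1)) (l : Fin (4 * j)) : ℝ :=
  be (ch (ix hj) P.1 (iy hj (finProdFinEquiv.symm l).2)) (finProdFinEquiv.symm l).1

/-- the quaternionic coordinates of a point of the cube -/
noncomputable def qc (y : Fin (4 * j) → ℝ) (i : Fin j) : Quaternion ℝ :=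
  beI fun c => y (finProdFinEquiv (c, i))

/-- all coordinates -/
noncomputable def qv (y : Fin (4 * j) → ℝ) : Fin (m + 1) → Quaternion ℝ :=
  fun i => if h : i.1 < j then qc y ⟨i.1, h⟩ else 0

theorem qv_of (y : Fin (4 * j) → ℝ) (i : Fin j) : qv (m := m) y (iy hj i) = qc y i := dif_pos i.2

theorem continuous_qc (i : Fin j) : Continuous fun y : Fin (4 * j) → ℝ => qc y i :=
  continuous_beI.comp (by fun_prop)

theorem continuous_qv : Continuous fun y : Fin (4 * j) → ℝ => qv (m := m) y := by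
  refine continuous_pi fun i => ?_
  unfold qv
  split_ifs with h
  · exact continuous_qc _
  · exact continuous_const

theorem norm_qv_le {y : Fin (4 * j) → ℝ} (hy : ∀ i, y i ∈ Icc (0 : ℝ) 1) (i : Fin (m + 1)) :
    ‖qv (m := m) y i‖ ≤ 1 := by
  unfold qv
  split_ifs with h
  · exact norm_beI_le fun c => hy _
  · rw [norm_zero]; exact zero_le_one

theorem norm_wv_le {c : ℝ} (hc : c ∈ Icc (0 : ℝ) 1) (l : Fin (m + 1))
    {w : Fin (m + 1) → Quaternion ℝ} (hw : ∀ i, ‖w i‖ ≤ 1) (i : Fin (m + 1)) :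
    ‖wv c l w i‖ ≤ 1 := by
  unfold wv
  split_ifs
  · exact hw i
  · rw [norm_one]
  · rw [norm_smul, Real.norm_of_nonneg hc.1]
    exact mul_le_one₀ hc.2 (norm_nonneg _) (hw i)

/-- **The polydiscs are handles.** -/
noncomputable def cellHP : Cell (HP (m + 1)) (4 * j) (Dj m j)
    (Dj m j ∩ {P | ∃ i < j, P ∈ Dj m i}) where
  φ := phj hj
  ψ y := pt (wv 0 (ix hj) (qv y)) (ix hj) (wv_self _ _)
  K p := pt (wv (1 - p.2) (ix hj) (ch (ix hj) p.1.1)) (ix hj) (wv_self _ _)
  φ_cont := by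
    refine continuousOn_pi.2 fun l => ?_
    have h1 : ContinuousOn (fun P : HP (m + 1) => ch (ix hj) P.1) (Dj m j) :=
      (continuousOn_ch _).comp continuous_subtype_val.continuousOn fun P hP => dg_pos hj hP
    have h2 := (continuous_apply (iy hj (finProdFinEquiv.symm l).2)).comp_continuousOn h1
    exact (continuous_apply _).comp_continuousOn (continuous_be.comp_continuousOn h2)
  φ_mem P hP l := be_mem (norm_ch_le hj hP _) _
  φ_bd := by
    rintro P ⟨hP, i, hi, hPi⟩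
    have h := dg_pos hj hP
    have him : i ≤ m := hi.le.trans hj
    have h1 : dg P.1 (iy hj ⟨i, hi⟩) = dg P.1 (ix hj) :=
      le_antisymm (dg_le_of_mem hj hP _) (dg_le_of_mem him hPi (ix hj))
    have h2 : ‖ch (ix hj) P.1 (iy hj ⟨i, hi⟩)‖ = 1 := by
      have h3 := norm_ch P.2 h (iy hj ⟨i, hi⟩)
      rw [h1, div_self h.ne'] at h3
      exact (pow_eq_one_iff_of_nonneg (norm_nonneg _) two_ne_zero).1 h3
    obtain ⟨c, hc⟩ := be_bd h2
    refine ⟨finProdFinEquiv (c, ⟨i, hi⟩), ?_⟩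
    simpa only [phj, Equiv.symm_apply_apply] using hc
  ψ_cont := by
    refine Continuous.continuousOn ?_
    refine Continuous.subtype_mk ?_ _
    have h1 : Continuous fun y : Fin (4 * j) → ℝ => wv 0 (ix hj) (qv (m := m) y) :=
      (continuous_wv (ix hj)).comp (continuous_const.prodMk continuous_qv)
    exact continuousOn_npr.comp_continuous h1 fun y =>
      (zero_lt_one).trans_le (one_le_ns (wv_self _ _))
  ψ_mem y hy := pt_mem hj _ fun i => norm_wv_le ⟨le_rfl, zero_le_one⟩ _ (norm_qv_le hy) i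
  ψ_bd y hy hb := by
    have hw : ∀ i, ‖wv 0 (ix hj) (qv (m := m) y) i‖ ≤ 1 := fun i =>
      norm_wv_le ⟨le_rfl, zero_le_one⟩ _ (norm_qv_le hy) i
    refine ⟨pt_mem hj _ hw, ?_⟩
    obtain ⟨l, hl⟩ := hb
    obtain ⟨⟨c, i⟩, rfl⟩ := finProdFinEquiv.surjective l
    refine ⟨i.1, i.2, pt_bd hj _ hw i.2 ?_⟩
    have h1 : wv 0 (ix hj) (qv (m := m) y) (iy hj i) = qc y i := by
      rw [wv_lt (by exact i.2), qv_of hj]
    change ‖wv 0 (ix hj) (qv (m := m) y) (iy hj i)‖ = 1
    rw [h1]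
    exact norm_beI_bd (fun c => hy _) ⟨c, hl⟩
  φψ y hy := by
    funext l
    obtain ⟨⟨c, i⟩, rfl⟩ := finProdFinEquiv.surjective l
    rw [phj, Equiv.symm_apply_apply]
    change be (ch (ix hj) (npr (wv 0 (ix hj) (qv y))) (iy hj i)) c = _
    rw [ch_npr (wv_self _ _), wv_lt (by exact i.2), qv_of hj, qc, be_beI]
  K_cont := by
    rw [continuousOn_iff_continuous_domRestrict]
    refine Continuous.subtype_mk ?_ _
    have h1 : ContinuousOn (fun P : HP (m + 1) => ch (ix hj) P.1) (Dj m j) :=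
      (continuousOn_ch _).comp continuous_subtype_val.continuousOn fun P hP => dg_pos hj hP
    have h2 : ContinuousOn (fun p : HP (m + 1) × ℝ => wv (1 - p.2) (ix hj) (ch (ix hj) p.1.1))
        (Dj m j ×ˢ Icc (0:ℝ) 1) := by
      refine (continuous_wv (ix hj)).comp_continuousOn (ContinuousOn.prodMk (by fun_prop) ?_)
      exact h1.comp continuousOn_fst fun p hp => hp.1
    have h3 := continuousOn_npr.comp h2 fun p _ =>
      (zero_lt_one).trans_le (one_le_ns (wv_self (ix hj) _))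
    exact continuousOn_iff_continuous_domRestrict.1 h3
  K_mem P hP s hs := pt_mem hj _ fun i =>
    norm_wv_le ⟨by linarith [hs.2], by linarith [hs.1]⟩ _ (norm_ch_le hj hP) i
  K_bd := by
    rintro P ⟨hP, i, hi, hPi⟩ s hs
    have hw : ∀ l, ‖wv (1 - s) (ix hj) (ch (ix hj) P.1) l‖ ≤ 1 := fun l =>
      norm_wv_le ⟨by linarith [hs.2], by linarith [hs.1]⟩ _ (norm_ch_le hj hP) l
    refine ⟨pt_mem hj _ hw, i, hi, pt_bd hj _ hw hi ?_⟩
    have h := dg_pos hj hP
    have him : i ≤ m := hi.le.trans hj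
    have h1 : dg P.1 (iy hj ⟨i, hi⟩) = dg P.1 (ix hj) :=
      le_antisymm (dg_le_of_mem hj hP _) (dg_le_of_mem him hPi (ix hj))
    have h2 : ‖ch (ix hj) P.1 (iy hj ⟨i, hi⟩)‖ = 1 := by
      have h3 := norm_ch P.2 h (iy hj ⟨i, hi⟩)
      rw [h1, div_self h.ne'] at h3
      exact (pow_eq_one_iff_of_nonneg (norm_nonneg _) two_ne_zero).1 h3
    rw [wv_lt (by exact hi)]
    exact h2
  K_zero P hP := by
    refine Subtype.ext ?_
    have h := dg_pos hj hP
    have h1 : wv (1 - 0) (ix hj) (ch (ix hj) P.1) = ch (ix hj) P.1 := by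
      funext i
      rcases lt_trichotomy i (ix hj) with h2 | h2 | h2
      · rw [wv_lt h2]
      · rw [h2, wv_self, ch_self P.2 h]
      · rw [wv_gt h2, sub_zero, one_smul]
    change npr (wv (1 - 0) (ix hj) (ch (ix hj) P.1)) = P.1
    rw [h1, npr_ch P.2 h]
  K_one P hP := by
    refine Subtype.ext ?_
    change npr (wv (1 - 1) (ix hj) (ch (ix hj) P.1)) = npr (wv 0 (ix hj) (qv (phj hj P)))
    congr 1
    funext i
    rcases lt_trichotomy i (ix hj) with h2 | h2 | h2
    · rw [wv_lt h2, wv_lt h2]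
      have h3 : i = iy hj ⟨i.1, h2⟩ := rfl
      rw [h3, qv_of hj, qc]
      have h4 : (fun c => phj hj P (finProdFinEquiv (c, (⟨i.1, h2⟩ : Fin j)))) =
          be (ch (ix hj) P.1 (iy hj ⟨i.1, h2⟩)) := by
        funext c
        rw [phj, Equiv.symm_apply_apply]
      rw [h4, beI_be]
    · rw [h2, wv_self, wv_self]
    · rw [wv_gt h2, wv_gt h2, sub_self, zero_smul, zero_smul]

end

/-- **The handle decomposition of `HP^m`.** -/
noncomputable def cellDecHP (m : ℕ) : CellDec (HP (m + 1)) 4 m where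
  D := Dj m
  closed := isClosed_Dj
  cov := cov_Dj
  cell _ hj := cellHP hj

end Vale.Agent.P216.H133C
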