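import Vale.Agent.P216.H550.MainC
import Vale.Agent.P216.H892.FinM
import Vale.Agent.P216.H456C.ThomHP
import Vale.Agent.P216.H133C.SCHP
import Vale.Agent.P216.H133C.HPCell

/-!
# P216-C : final assembly for `HP^m` and `CaP^2`
-/

open Set Topology Bundle Manifold
open scoped ContDiff

namespace Vale.Agent.P216.H133C

open Vale.Agent.P216.B64

theorem finM_of_cellDec {M : Type} [MetricSpace M] [CompactSpace M] {d h : ℕ}
    (C : CellDec M d h) : FinM M := fun _ _ h2 => H892.finM2_of_cellDec C h2

section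

variable {E : Type} [NormedAddCommGroup E] [NormedSpace ℝ E] [FiniteDimensional ℝ E]
    {M : Type} [MetricSpace M] [CompactSpace M] [ChartedSpace E M] [IsManifold 𝓘(ℝ, E) ∞ M]
    [RiemannianBundle (fun x : M => TangentSpace 𝓘(ℝ, E) x)]
    [IsContMDiffRiemannianBundle 𝓘(ℝ, E) ∞ E (fun x : M => TangentSpace 𝓘(ℝ, E) x)]
    [IsRiemannianManifold 𝓘(ℝ, E) M]

include E in
/-- The theorem for a decomposition in cells of dimensions `d j`, from the based loops. -/
theorem infinite_of_cellDec [PathConnectedSpace M] {d h : ℕ} (C : CellDec M d h) (h4 : 4 ∣ d)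
    (hd : 0 < d) (hh : 2 ≤ h) (hO : OmegaCGoal M (d - 1) (d * (h + 1) - 2)) :
    (primeClosedGeodesicImages M).Infinite := by
  have h1 : d * (h + 1) = d * h + d := by ring
  have h5 : 0 < d * h := Nat.mul_pos hd (by omega)
  have h6 := Nat.le_of_dvd hd h4
  exact H550.main_cell (E := E) C h4 hd (by omega) (by omega) (by omega) (finM_of_cellDec C) hO

end

end Vale.Agent.P216.H133C
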