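import Vale.Agent.P216.H133C.MainR
import Vale.Agent.P216.H133C.HP1
import Vale.Agent.P216.H347C.RingHP
import Vale.Agent.P216.H893.CaRingOut
import Vale.Agent.P216.B609.All

/-!
# P216-C : the main theorems

Every smooth Riemannian metric on a closed manifold homeomorphic to `HP^m` or to the Cayley plane
has infinitely many prime closed geodesics.
-/

open Set Topology Bundle Manifold
open scoped ContDiff

namespace Vale.Agent.P216.H133C

open Vale.Agent.P216.B64

section

variable {E : Type} [NormedAddCommGroup E] [NormedSpace ℝ E] [FiniteDimensional ℝ E]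
    {M : Type} [MetricSpace M] [CompactSpace M] [ChartedSpace E M] [IsManifold 𝓘(ℝ, E) ∞ M]
    [RiemannianBundle (fun x : M => TangentSpace 𝓘(ℝ, E) x)]
    [IsContMDiffRiemannianBundle 𝓘(ℝ, E) ∞ E (fun x : M => TangentSpace 𝓘(ℝ, E) x)]
    [IsRiemannianManifold 𝓘(ℝ, E) M]

include E in
/-- **P216-C for `HP^m`.** -/
theorem infinite_of_HPm {m : ℕ} (hm : 1 ≤ m) (e : M ≃ₜ HPm m) :
    (primeClosedGeodesicImages M).Infinite := by
  rcases hm.eq_or_lt with rfl | hm
  · exact B609.theoremB (E := E) le_rfl (e.trans homeoHPm1)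
  · exact infinite_of_homeoHP (E := E) hm (e.trans (homeoHPm m)) (H347C.ringHP m M _)

include E in
/-- **P216-C for the Cayley plane.** -/
theorem infinite_of_CaP2 (e : M ≃ₜ H893.CaP2) : (primeClosedGeodesicImages M).Infinite :=
  infinite_of_homeoCa (E := E) e (H893.ringOutCa' M e)

end

end Vale.Agent.P216.H133C
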