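import Vale.Agent.P216.H550.MainX
import Vale.Agent.P216.H977C.MainC
import Vale.Agent.P216.H894.SignOut
import Vale.Agent.P216.H140.MidOut

/-!
# P216-C : the goal OMEGA, with the signs, from THOM and MID
-/

open Finsupp Set BoundedContinuousFunction

namespace Vale.Agent.P216.H133C

open Vale.Agent.P216.Sl Vale.Agent.P216.PS Vale.Agent.P216.N929 Vale.Agent.P216.H977C
  Vale.Agent.P216.B64

/-- **OMEGA with signs.** -/
theorem omegaCGoal_of {M : Type} [MetricSpace M] [CompactSpace M] [SimplyConnectedSpace M]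
    {d h : ℕ} (C : CellDec M d h) (hd : 2 ≤ d) (hh : 2 ≤ h) (hev : Even d)
    (hT : ThomOut M (d * h)) (hM : MidOutC C (d - 1) (d * (h + 1) - 2)) :
    OmegaCGoal M (d - 1) (d * (h + 1) - 2) := by
  intro ρ hρ hU
  obtain ⟨x₀⟩ : Nonempty M := inferInstance
  obtain ⟨B0, hB0, hL⟩ := C313.lowC C (by omega) hρ hU
  have h1 : d * 2 ≤ d * h := Nat.mul_le_mul_left d hh
  have h2 : d * (h + 1) = d * h + d := by ring
  have hK : IsCompact (C.L h) := (C.isClosed_L h).isCompact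
  obtain ⟨a, ha, ha'⟩ := (infinite_compl C (by omega)).exists_notMem_finite (Set.finite_singleton x₀)
  obtain ⟨b, hb, hb'⟩ := (infinite_compl C (by omega)).exists_notMem_finite
    ((Set.finite_singleton x₀).insert a)
  simp only [mem_singleton_iff, mem_insert_iff, not_or] at ha' hb'
  obtain ⟨G, rfl, hG⟩ := exists_geo' hU hρ (n := d * h) (by omega) (fun h => ha' h.symm)
    (fun h => hb'.2 h.symm) (fun h => hb'.1 h.symm) hK ha hb
  obtain ⟨Dp, hDp, hne, hj⟩ := H250.pi0 hρ hU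
  obtain ⟨s, hs, H⟩ := hM G hG
  have hCa : 1 + (⌈Dp⌉₊ : ℝ) + s ≤ 1 + ⌈Dp⌉₊ + s := le_rfl
  have hCa0 : (0 : ℝ) ≤ 1 + ⌈Dp⌉₊ + s := by positivity
  have hD : d * (h + 1) - 2 + 1 = d * h + (d - 1) := by omega
  have hn : Even (d * h) := hev.mul_right h
  have hDe : Even (d * (h + 1) - 2) := by
    obtain ⟨c, hc⟩ := hev.mul_right (h + 1)
    exact ⟨c - 1, by omega⟩
  refine ⟨G.x₀, OmSysC.BC G.r (1 + ⌈Dp⌉₊ + s) Dp B0, ?_, fun k _ h2 => ?_⟩
  · have := G.hr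
    unfold OmSysC.BC
    linarith
  · obtain ⟨τ, hτ⟩ := hT k h2 G.ρ₁ G.h1
    obtain ⟨E, hE, hmid⟩ := H k h2 τ hτ
    have hv : ∀ b, ∃ v : ℝ →ᵇ M, v ∈ P (G.y (!b)) (G.y b) ⌈Dp⌉₊ := fun b => by
      obtain ⟨v, hv⟩ := hne (G.y (!b)) (G.y b)
      exact ⟨v, P_mono (Nat.le_ceil Dp) hv⟩
    exact ⟨_, H894.omegaSignC_out G τ E hD hE (by omega) (by omega) hn hDe hs hCa hv hmid
      (r₀ := G.ρ₁) (εt := τ.ε) (Dp := Dp) G.seg G.hr G.hrρ G.h1r τ.hε
      ⟨τ.nrm, τ.coc, fun l _ _ h => τ.supp l h⟩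
      ⟨hDp, hne, hj⟩ hCa0 (by omega) hD (by omega) hB0 hL h2⟩

end Vale.Agent.P216.H133C
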