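import Vale.Agent.P216.H133C.Fin
import Vale.Agent.P216.H133C.OmGoal
import Vale.Agent.P216.H133C.DefEq
import Vale.Agent.P216.H893.CaSCI

/-!
# P216-C : the main theorems from the ring structure
-/

open Set Topology Bundle Manifold
open scoped ContDiff

namespace Vale.Agent.P216.H133C

open Vale.Agent.P216.B64

section

variable {E : Type} [NormedAddCommGroup E] [NormedSpace ℝ E] [FiniteDimensional ℝ E]
    {M : Type} [MetricSpace M] [CompactSpace M] [ChartedSpace E M] [IsManifold 𝓘(ℝ, E) ∞ M]
    [RiemannianBundle (fun x : M => TangentSpace 𝓘(ℝ, E) x)]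
    [IsContMDiffRiemannianBundle 𝓘(ℝ, E) ∞ E (fun x : M => TangentSpace 𝓘(ℝ, E) x)]
    [IsRiemannianManifold 𝓘(ℝ, E) M]

include E in
/-- **P216-C**, from a decomposition in cells of dimensions `d j`, a Thom class and the ring
structure. -/
theorem infinite_of_ring [SimplyConnectedSpace M] {d h : ℕ} (C : CellDec M d h) (h4 : 4 ∣ d)
    (hd : 0 < d) (hh : 2 ≤ h) (hT : ThomOut M (d * h)) (hR : RingOut M C) :
    (primeClosedGeodesicImages M).Infinite := by
  have h6 := Nat.le_of_dvd hd h4
  have hev : Even d := by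
    obtain ⟨c, rfl⟩ := h4
    exact ⟨2 * c, by ring⟩
  exact infinite_of_cellDec (E := E) C h4 hd hh (omegaCGoal_of C (by omega) hh hev hT
    (H140.midOutC C (by omega) (by omega) hR))

include E in
theorem infinite_of_homeoHP {m : ℕ} (hm : 2 ≤ m) (e : M ≃ₜ HP (m + 1))
    (hR : RingOut M ((cellDecHP m).trans e)) : (primeClosedGeodesicImages M).Infinite := by
  have := simplyConnected_of_homeoHP e
  exact infinite_of_ring (E := E) ((cellDecHP m).trans e) (dvd_refl 4) (by norm_num) hm
    (H456C.thomOutHP (by omega) M e) hR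

include E in
theorem infinite_of_homeoCa (e : M ≃ₜ H893.CaP2) (hR : RingOut M (H893.cellDecCa.trans e)) :
    (primeClosedGeodesicImages M).Infinite := by
  have : SimplyConnectedSpace M := e.toHomotopyEquiv.simplyConnectedSpace
  exact infinite_of_ring (E := E) (H893.cellDecCa.trans e) (by norm_num) (by norm_num) le_rfl
    (H456C.thomOutCa M e) hR

end

end Vale.Agent.P216.H133C
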