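import Vale.Agent.P216.H133C.ThomDefs

/-!
# P216-C, block [THOM], T2 : the shear over a polydisc
-/

open Set Quaternion

namespace Vale.Agent.P216.H133C

variable {N : ℕ}

/-- `S a Sᴴ` -/
noncomputable def cj (S a : Mt N) : Mt N := fun k l => ∑ p, ∑ q, S k p * a p q * star (S l q)

/-- `S u` -/
noncomputable def mv (S : Mt N) (u : Fin N → Quaternion ℝ) : Fin N → Quaternion ℝ :=
  fun k => ∑ p, S k p * u p

theorem cj_prj (S : Mt N) (u : Fin N → Quaternion ℝ) : cj S (prj u) = prj (mv S u) := by
  funext k l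
  simp only [cj, prj, mv]
  rw [star_sum, Finset.sum_mul_sum]
  refine Finset.sum_congr rfl fun p _ => Finset.sum_congr rfl fun q _ => ?_
  rw [star_mul, mul_assoc, mul_assoc, mul_assoc]

theorem mv_smul (S : Mt N) (c : ℝ) (u : Fin N → Quaternion ℝ) : mv S (c • u) = c • mv S u := by
  funext k
  simp only [mv, Pi.smul_apply, mul_smul_comm, Finset.smul_sum]

/-- the trace -/
noncomputable def trc (a : Mt N) : ℝ := ∑ i, dg a i

theorem trc_prj (u : Fin N → Quaternion ℝ) : trc (prj u) = ns u := by
  simp only [trc, dg_prj, ns]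

theorem trc_smul (c : ℝ) (a : Mt N) : trc (c • a) = c * trc a := by
  simp only [trc, dg_smul, Finset.mul_sum]

/-- the projective action -/
noncomputable def act (S a : Mt N) : Mt N := (trc (cj S a))⁻¹ • cj S a

theorem act_prj (S : Mt N) (u : Fin N → Quaternion ℝ) : act S (prj u) = npr (mv S u) := by
  rw [act, cj_prj, trc_prj, npr]

theorem npr_eq_prj {u : Fin N → Quaternion ℝ} (hu : 0 < ns u) :
    npr u = prj ((√(ns u))⁻¹ • u) := by
  rw [prj_smul, inv_pow, Real.sq_sqrt hu.le]
  rfl

theorem act_npr (S : Mt N) {u : Fin N → Quaternion ℝ} (hu : 0 < ns u) :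
    act S (npr u) = npr (mv S u) := by
  have hs : (√(ns u))⁻¹ ≠ 0 := inv_ne_zero (Real.sqrt_pos.2 hu).ne'
  rw [npr_eq_prj hu, act_prj, mv_smul, npr_smul hs]

theorem continuous_trc : Continuous (trc (N := N)) := by
  unfold trc
  exact continuous_finsetSum _ fun i _ => continuous_dg i

theorem continuous_cj : Continuous fun p : Mt N × Mt N => cj p.1 p.2 := by
  unfold cj
  refine continuous_pi fun k => continuous_pi fun l => ?_
  refine continuous_finsetSum _ fun p _ => continuous_finsetSum _ fun q _ => ?_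
  have h1 : Continuous fun x : Mt N × Mt N => x.1 k p :=
    (continuous_apply p).comp ((continuous_apply k).comp continuous_fst)
  have h2 : Continuous fun x : Mt N × Mt N => x.2 p q :=
    (continuous_apply q).comp ((continuous_apply p).comp continuous_snd)
  have h3 : Continuous fun x : Mt N × Mt N => x.1 l q :=
    (continuous_apply q).comp ((continuous_apply l).comp continuous_fst)
  exact (h1.mul h2).mul (continuous_star'.comp h3)

theorem continuousOn_act : ContinuousOn (fun p : Mt N × Mt N => act p.1 p.2)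
    {p | 0 < trc (cj p.1 p.2)} := by
  unfold act
  exact ((continuous_trc.comp continuous_cj).continuousOn.inv₀ fun p hp => ne_of_gt hp).smul
    continuous_cj.continuousOn

/-! ### The shear -/

/-- the linear map `u ↦ u'`, `u' j = ⟨w, u⟩`, `u' i = u i` -/
noncomputable def sh (j : Fin N) (w : Fin N → Quaternion ℝ) : Mt N :=
  fun k p => if k = j then star (w p) else if k = p then 1 else 0

/-- its inverse if `w j = 1` -/
noncomputable def shI (j : Fin N) (w : Fin N → Quaternion ℝ) : Mt N :=
  fun k p => if k = p then 1 else if k = j then - star (w p) else 0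

/-- the hermitian product -/
noncomputable def hp (w u : Fin N → Quaternion ℝ) : Quaternion ℝ := ∑ p, star (w p) * u p

theorem mv_sh_self (j : Fin N) (w u : Fin N → Quaternion ℝ) : mv (sh j w) u j = hp w u := by
  simp only [mv, sh, if_true, hp]

theorem mv_sh_ne {j k : Fin N} (h : k ≠ j) (w u : Fin N → Quaternion ℝ) :
    mv (sh j w) u k = u k := by
  simp only [mv, sh, if_neg h]
  rw [Finset.sum_eq_single k]
  · rw [if_pos rfl, one_mul]
  · intro p _ hp
    rw [if_neg (Ne.symm hp), zero_mul]
  · simp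

theorem mv_shI_ne {j k : Fin N} (h : k ≠ j) (w u : Fin N → Quaternion ℝ) :
    mv (shI j w) u k = u k := by
  simp only [mv, shI, if_neg h]
  rw [Finset.sum_eq_single k]
  · rw [if_pos rfl, one_mul]
  · intro p _ hp
    rw [if_neg (Ne.symm hp), zero_mul]
  · simp

theorem hp_split (j : Fin N) {w : Fin N → Quaternion ℝ} (hw : w j = 1)
    (u : Fin N → Quaternion ℝ) :
    hp w u = u j + ∑ p ∈ Finset.univ.erase j, star (w p) * u p := by
  rw [hp, ← Finset.add_sum_erase _ _ (Finset.mem_univ j), hw, star_one, one_mul]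

theorem mv_shI_self (j : Fin N) (w u : Fin N → Quaternion ℝ) :
    mv (shI j w) u j = u j - ∑ p ∈ Finset.univ.erase j, star (w p) * u p := by
  simp only [mv, shI]
  rw [← Finset.add_sum_erase _ _ (Finset.mem_univ j), if_pos rfl, one_mul, sub_eq_add_neg,
    ← Finset.sum_neg_distrib]
  congr 1
  refine Finset.sum_congr rfl fun p hp => ?_
  rw [if_neg (Ne.symm (Finset.ne_of_mem_erase hp)), if_true, neg_mul]

theorem shI_sh (j : Fin N) {w : Fin N → Quaternion ℝ} (hw : w j = 1)
    (u : Fin N → Quaternion ℝ) : mv (shI j w) (mv (sh j w) u) = u := by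
  funext k
  rcases eq_or_ne k j with rfl | h
  · rw [mv_shI_self, mv_sh_self, hp_split k hw]
    have : ∑ p ∈ Finset.univ.erase k, star (w p) * mv (sh k w) u p =
        ∑ p ∈ Finset.univ.erase k, star (w p) * u p :=
      Finset.sum_congr rfl fun p hp => by rw [mv_sh_ne (Finset.ne_of_mem_erase hp)]
    rw [this, add_sub_cancel_right]
  · rw [mv_shI_ne h, mv_sh_ne h]

theorem sh_shI (j : Fin N) {w : Fin N → Quaternion ℝ} (hw : w j = 1)
    (u : Fin N → Quaternion ℝ) : mv (sh j w) (mv (shI j w) u) = u := by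
  funext k
  rcases eq_or_ne k j with rfl | h
  · rw [mv_sh_self, hp_split k hw, mv_shI_self]
    have : ∑ p ∈ Finset.univ.erase k, star (w p) * mv (shI k w) u p =
        ∑ p ∈ Finset.univ.erase k, star (w p) * u p :=
      Finset.sum_congr rfl fun p hp => by rw [mv_shI_ne (Finset.ne_of_mem_erase hp)]
    rw [this, sub_add_cancel]
  · rw [mv_sh_ne h, mv_shI_ne h]

theorem ns_eq_zero {u : Fin N → Quaternion ℝ} (h : ns u = 0) : u = 0 := by
  funext i
  have h1 := (Finset.sum_eq_zero_iff_of_nonneg (fun i _ => by positivity)).1 h i (Finset.mem_univ i)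
  simpa using h1

theorem mv_zero (S : Mt N) : mv S 0 = 0 := by
  funext k
  simp [mv]

theorem ns_sh_pos {j : Fin N} {w u : Fin N → Quaternion ℝ} (hw : w j = 1) (hu : 0 < ns u) :
    0 < ns (mv (sh j w) u) := by
  refine lt_of_le_of_ne (ns_nonneg _) fun h => ?_
  have h1 := ns_eq_zero h.symm
  have h2 := shI_sh j hw u
  rw [h1, mv_zero] at h2
  rw [← h2] at hu
  simp [ns] at hu

theorem ns_shI_pos {j : Fin N} {w u : Fin N → Quaternion ℝ} (hw : w j = 1) (hu : 0 < ns u) :
    0 < ns (mv (shI j w) u) := by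
  refine lt_of_le_of_ne (ns_nonneg _) fun h => ?_
  have h1 := ns_eq_zero h.symm
  have h2 := sh_shI j hw u
  rw [h1, mv_zero] at h2
  rw [← h2] at hu
  simp [ns] at hu

/-! ### Action on projective space -/

theorem act_sh_mem {j : Fin N} {w : Fin N → Quaternion ℝ} (hw : w j = 1) {a : Mt N}
    (ha : a ∈ HP N) : act (sh j w) a ∈ HP N := by
  obtain ⟨u, hu, rfl⟩ := ha
  rw [act_prj]
  exact npr_mem (ns_sh_pos hw (by rw [hu]; exact one_pos))

theorem act_shI_mem {j : Fin N} {w : Fin N → Quaternion ℝ} (hw : w j = 1) {a : Mt N}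
    (ha : a ∈ HP N) : act (shI j w) a ∈ HP N := by
  obtain ⟨u, hu, rfl⟩ := ha
  rw [act_prj]
  exact npr_mem (ns_shI_pos hw (by rw [hu]; exact one_pos))

theorem trc_sh_pos {j : Fin N} {w : Fin N → Quaternion ℝ} (hw : w j = 1) {a : Mt N}
    (ha : a ∈ HP N) : 0 < trc (cj (sh j w) a) := by
  obtain ⟨u, hu, rfl⟩ := ha
  rw [cj_prj, trc_prj]
  exact ns_sh_pos hw (by rw [hu]; exact one_pos)

theorem trc_shI_pos {j : Fin N} {w : Fin N → Quaternion ℝ} (hw : w j = 1) {a : Mt N}
    (ha : a ∈ HP N) : 0 < trc (cj (shI j w) a) := by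
  obtain ⟨u, hu, rfl⟩ := ha
  rw [cj_prj, trc_prj]
  exact ns_shI_pos hw (by rw [hu]; exact one_pos)

theorem act_shI_sh {j : Fin N} {w : Fin N → Quaternion ℝ} (hw : w j = 1) {a : Mt N}
    (ha : a ∈ HP N) : act (shI j w) (act (sh j w) a) = a := by
  obtain ⟨u, hu, rfl⟩ := ha
  rw [act_prj, act_npr _ (ns_sh_pos hw (by rw [hu]; exact one_pos)), shI_sh j hw, npr_of_ns hu]

theorem act_sh_shI {j : Fin N} {w : Fin N → Quaternion ℝ} (hw : w j = 1) {a : Mt N}
    (ha : a ∈ HP N) : act (sh j w) (act (shI j w) a) = a := by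
  obtain ⟨u, hu, rfl⟩ := ha
  rw [act_prj, act_npr _ (ns_shI_pos hw (by rw [hu]; exact one_pos)), sh_shI j hw, npr_of_ns hu]

/-- orthogonality and the shear -/
theorem dg_act_sh {j : Fin N} {w u : Fin N → Quaternion ℝ} :
    dg (act (sh j w) (prj u)) j = ‖hp w u‖ ^ 2 / ns (mv (sh j w) u) := by
  rw [act_prj, dg_npr, mv_sh_self]

theorem re_mul_comm' (x y : Quaternion ℝ) : (x * y).re = (y * x).re := by
  simp only [Quaternion.re_mul]
  ring

/-- the real part, additive -/
def reA : Quaternion ℝ →+ ℝ where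
  toFun q := q.re
  map_zero' := rfl
  map_add' _ _ := rfl

theorem re_sum' {ι : Type} (s : Finset ι) (f : ι → Quaternion ℝ) :
    (∑ i ∈ s, f i).re = ∑ i ∈ s, (f i).re := map_sum reA f s

theorem star_hp (u v : Fin N → Quaternion ℝ) : star (hp u v) = hp v u := by
  rw [hp, star_sum, hp]
  refine Finset.sum_congr rfl fun p _ => ?_
  rw [star_mul, star_star]

theorem tp_prj (u v : Fin N → Quaternion ℝ) : tp (prj u) (prj v) = ‖hp v u‖ ^ 2 := by
  have h1 : ∀ i, ∑ j, (prj u i j * prj v j i).re = ((hp u v) * (star (v i) * u i)).re := by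
    intro i
    rw [← re_sum']
    have e : ∑ j, prj u i j * prj v j i = u i * hp u v * star (v i) := by
      rw [hp, Finset.mul_sum, Finset.sum_mul]
      refine Finset.sum_congr rfl fun j _ => ?_
      simp only [prj, mul_assoc]
    rw [e, mul_assoc, re_mul_comm', mul_assoc]
  rw [tp]
  simp only [h1]
  rw [← re_sum', ← Finset.mul_sum]
  change (hp u v * hp v u).re = _
  rw [← star_hp u v, mul_star_self', Quaternion.re_coe, Quaternion.norm_star]

theorem tp_smul_left (c : ℝ) (a b : Mt N) : tp (c • a) b = c * tp a b := by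
  simp only [tp, Pi.smul_apply, smul_mul_assoc, Quaternion.re_smul, smul_eq_mul, Finset.mul_sum]

theorem tp_smul_right (c : ℝ) (a b : Mt N) : tp a (c • b) = c * tp a b := by
  simp only [tp, Pi.smul_apply, mul_smul_comm, Quaternion.re_smul, smul_eq_mul, Finset.mul_sum]

theorem tp_prj_npr (u w : Fin N → Quaternion ℝ) :
    tp (prj u) (npr w) = ‖hp w u‖ ^ 2 / ns w := by
  rw [npr, tp_smul_right, tp_prj, div_eq_inv_mul]

theorem continuous_tp : Continuous fun p : Mt N × Mt N => tp p.1 p.2 := by
  unfold tp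
  refine continuous_finsetSum _ fun i _ => continuous_finsetSum _ fun j _ => ?_
  have h1 : Continuous fun x : Mt N × Mt N => x.1 i j :=
    (continuous_apply j).comp ((continuous_apply i).comp continuous_fst)
  have h2 : Continuous fun x : Mt N × Mt N => x.2 j i :=
    (continuous_apply i).comp ((continuous_apply j).comp continuous_snd)
  exact Quaternion.continuous_re.comp (h1.mul h2)

/-- **Orthogonality in the sheared coordinates.** -/
theorem dg_act_sh_eq_zero {j : Fin N} {w : Fin N → Quaternion ℝ} (hw : w j = 1) {a : Mt N}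
    (ha : a ∈ HP N) : dg (act (sh j w) a) j = 0 ↔ tp a (npr w) = 0 := by
  obtain ⟨u, hu, rfl⟩ := ha
  have h1 := (ns_sh_pos hw (by rw [hu]; exact one_pos : 0 < ns u)).ne'
  have h2 : ns w ≠ 0 := ((zero_lt_one).trans_le (one_le_ns hw)).ne'
  rw [dg_act_sh, tp_prj_npr, div_eq_zero_iff, div_eq_zero_iff]
  constructor
  · rintro (h | h)
    · exact Or.inl h
    · exact absurd h h1
  · rintro (h | h)
    · exact Or.inl h
    · exact absurd h h2

theorem continuous_sh (j : Fin N) : Continuous fun w : Fin N → Quaternion ℝ => sh j w := by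
  unfold sh
  refine continuous_pi fun k => continuous_pi fun p => ?_
  split_ifs
  · exact continuous_star'.comp (continuous_apply p)
  · exact continuous_const
  · exact continuous_const

theorem continuous_shI (j : Fin N) : Continuous fun w : Fin N → Quaternion ℝ => shI j w := by
  unfold shI
  refine continuous_pi fun k => continuous_pi fun p => ?_
  split_ifs
  · exact continuous_const
  · exact (continuous_star'.comp (continuous_apply p)).neg
  · exact continuous_const

end Vale.Agent.P216.H133C
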