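import Vale.Agent.P216.H133C.HPCell
import Vale.Agent.P216.C313.Relh

/-!
# P216-C, block [THOM] : definitions and exact statements of the pieces

The space `HP N` (`N = m + 1`) as a compact subset of `Mt N`.
-/

open Set Quaternion

namespace Vale.Agent.P216.H133C

open Vale.Agent.P216.AS Vale.Agent.P216.H901 Vale.Agent.P216.H83

/-- `tr (a b)`, equal to `|⟨u, v⟩|²` for `a = u uᴴ`, `b = v vᴴ`. -/
noncomputable def tp {N : ℕ} (a b : Mt N) : ℝ := ∑ i, ∑ j, (a i j * b j i).re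

/-- the orthogonal pairs of lines -/
def Fl (N : ℕ) : Set (Mt N × Mt N) := {p | p.1 ∈ HP N ∧ p.2 ∈ HP N ∧ tp p.1 p.2 = 0}

/-- the pairs of lines at a positive distance (`c < 1`) -/
def Ac (N : ℕ) (c : ℝ) : Set (Mt N × Mt N) := {p | p.1 ∈ HP N ∧ p.2 ∈ HP N ∧ tp p.1 p.2 ≤ c}

/-- the hyperplane `v j = 0` -/
def Az (N : ℕ) (j : Fin N) : Set (Mt N) := {P | P ∈ HP N ∧ dg P j = 0}

/-- [T1a] `H^q(HP^m, HP^(m-1)) = 0` for `q ≠ 4 m` -/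
def T1a : Prop := ∀ (m : ℕ) (k : Type) [Field k], (2 : k) ≠ 0 → ∀ (j : Fin (m + 1)) (q : ℕ),
  q ≠ 4 * m → ∀ x : Hr (tr (Mt (m + 1))) (on k) (HP (m + 1)) (Az (m + 1) j) q, x = 0

/-- [T1b] there is a class in `H^(4m)(HP^m, HP^(m-1))` which is not `0` in `H^(4m)(HP^m)` -/
def T1b : Prop := ∀ (m : ℕ) (k : Type) [Field k], (2 : k) ≠ 0 → ∀ j : Fin (m + 1),
  ∃ x : Hr (tr (Mt (m + 1))) (on k) (HP (m + 1)) (Az (m + 1) j) (4 * m),
    lesA k (HP (m + 1)) (Az (m + 1) j) (4 * m) x ≠ 0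

theorem fl_sub_ac {N : ℕ} {c : ℝ} (h0 : 0 ≤ c) : Fl N ⊆ Ac N c :=
  fun _ hp => ⟨hp.1, hp.2.1, hp.2.2.trans_le h0⟩

/-- [T4] every class relative to `Fl` comes from a class relative to `Ac c`, `c < 1`
(deformation `b_s = (1 - s a) b (1 - s a) / (1 - (2 s - s²) tr (a b))`, `a` fixed). -/
def T4 : Prop := ∀ (N : ℕ) (k : Type) [Field k] (c : ℝ) (h0 : 0 ≤ c), c < 1 → ∀ (q : ℕ)
  (x : Hr (tr (Mt N × Mt N)) (on k) (HP N ×ˢ HP N) (Fl N) q),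
  ∃ y : Hr (tr (Mt N × Mt N)) (on k) (HP N ×ˢ HP N) (Ac N c) q,
    resR subset_rfl (fl_sub_ac h0) q y = x

/-- The slice `a ↦ (a, b)`. -/
def sl {N : ℕ} (b : Mt N) (a : Mt N) : Mt N × Mt N := (a, b)

theorem isMap_sl {N : ℕ} {b : Mt N} (hb : b ∈ HP N) :
    IsMap (tr (Mt N)) (tr (Mt N × Mt N)) (HP N) (HP N ×ˢ HP N) (sl b) where
  mapsX _ ha := ⟨ha, hb⟩
  eqv i := i.elim
  uc ε hε := ⟨ε, hε, fun x _ y _ h => by
    change dist (x, b) (y, b) < ε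
    rw [Prod.dist_eq, dist_self]
    exact max_lt h hε⟩

/-- [T3] the Thom class: a class on `HP × HP` relative to the orthogonal pairs which is not zero on
every slice `HP × {b}`. -/
def T3 : Prop := ∀ (m : ℕ) (k : Type) [Field k], (2 : k) ≠ 0 →
  ∃ x : Hr (tr (Mt (m + 1) × Mt (m + 1))) (on k) (HP (m + 1) ×ˢ HP (m + 1)) (Fl (m + 1)) (4 * m),
    ∀ (b : Mt (m + 1)) (hb : b ∈ HP (m + 1)),
      pullR (on k) (isMap_sl hb) (empty_subset _) (mapsTo_empty _ _) (4 * m)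
        (lesA k (HP (m + 1) ×ˢ HP (m + 1)) (Fl (m + 1)) (4 * m) x) ≠ 0

end Vale.Agent.P216.H133C
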