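import Vale.Agent.P216.H133C.ThomC
import Vale.Agent.P216.H456C.ThomAbs

/-!
# P216-C, block [THOM] : from frames to the Thom cochain
-/

open Set

namespace Vale.Agent.P216.H133C

open Vale.Agent.P216.AS Vale.Agent.P216.H901

theorem Frames.thomOut {M : Type} [MetricSpace M] [CompactSpace M] [PathConnectedSpace M]
    {d h : ℕ} {C : CellDec M d h} (F : Frames C) (hd : 2 ≤ d)
    (c1 : ∀ (k : Type) [Field k], (2 : k) ≠ 0 → NoH k (C.L h) ∅ (d * h))
    (c2 : ∀ (k : Type) [Field k], (2 : k) ≠ 0 →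
      ∃ x : Hr (tr M) (on k) (univ : Set M) ∅ (d * h), x ≠ 0) : ThomOut M (d * h) :=
  H456C.thomOut_of F.f_cont F.f_le (fun p => (F.f_one p).1) fun k _ hk =>
    ⟨F.κ₀, F.κ₀_lt, fun _ hκ hκ1 => F.thom_class (c1 k hk) (c2 k hk) hk hκ hκ1 hd⟩

end Vale.Agent.P216.H133C
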